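import Vale.Agent.H7.P052.BigR

namespace Vale.Agent.H7.P052

/-- 480-bit word number `r` of `bigR` -/
def rowR (r : ℕ) : ℕ := Nat.mod (Nat.shiftRight bigR (Nat.mul 480 r)) (Nat.pow 2 480)

/-- word of the vertex `v`: the 64 low bits are ones, and the bit `64 + w` tells whether `v ~ w` -/
def vrow (v : ℕ) : ℕ := rowR (Nat.mod (Nat.pow 2 v) 419)

/-- adjacency -/
def adj (v w : ℕ) : Bool := Nat.testBit (vrow v) (64 + w)

/-- adjacency as a number -/
def bit (v w : ℕ) : ℕ := Nat.land (Nat.shiftRight (vrow v) (Nat.add 64 w)) 1

theorem bit_eq (v w : ℕ) : bit v w = (adj v w).toNat := by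
  unfold bit adj
  rw [Nat.toNat_testBit]
  change (vrow v >>> (64 + w)) &&& 1 = _
  rw [Nat.and_one_is_mod, Nat.shiftRight_eq_div_pow]

/-- strict application -/
def force {α : Type} (n : ℕ) (f : ℕ → α) : α :=
  Nat.rec (motive := fun _ => α) (f 0) (fun p _ => f (Nat.add p 1)) n

theorem force_eq {α : Type} (n : ℕ) (f : ℕ → α) : force n f = f n := by
  cases n <;> rfl

/-- `nc fuel k s`: certifies that every clique inside `s >>> 64` has at most `k` elements; the low
64 bits of `s` are only used to give different numbers different hash values. -/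
def nc (fuel : ℕ) : ℕ → ℕ → Bool :=
  Nat.rec (motive := fun _ => ℕ → ℕ → Bool) (fun _ _ => false)
    (fun _ ih k s =>
      Bool.rec (motive := fun _ => Bool) true
        (Nat.rec (motive := fun _ => Bool) false
          (fun k' _ =>
            force (Nat.mod (Nat.gcd (Nat.shiftRight s 64) (Nat.pow 2 416)) 419) fun r =>
              force (Nat.xor (Nat.xor s
                  (Nat.shiftLeft (Nat.gcd (Nat.shiftRight s 64) (Nat.pow 2 416)) 64))
                (Nat.mod (Nat.mul r 0x9E3779B97F4A7C15) 18446744073709551616)) fun c =>
                and (ih k' (Nat.land c (rowR r))) (ih (Nat.add k' 1) c)) k)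
        (Nat.ble 18446744073709551616 s)) fuel

theorem nc_succ (n k s : ℕ) : nc (n + 1) k s =
    Bool.rec (motive := fun _ => Bool) true
        (Nat.rec (motive := fun _ => Bool) false
          (fun k' _ =>
            force (Nat.mod (Nat.gcd (Nat.shiftRight s 64) (Nat.pow 2 416)) 419) fun r =>
              force (Nat.xor (Nat.xor s
                  (Nat.shiftLeft (Nat.gcd (Nat.shiftRight s 64) (Nat.pow 2 416)) 64))
                (Nat.mod (Nat.mul r 0x9E3779B97F4A7C15) 18446744073709551616)) fun c =>
                and (nc n k' (Nat.land c (rowR r))) (nc n (Nat.add k' 1) c)) k)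
        (Nat.ble 18446744073709551616 s) := rfl

set_option exponentiation.threshold 500 in
theorem nc_sound (fuel : ℕ) : ∀ (k s : ℕ), nc fuel k s = true →
    ∀ t : Finset ℕ, (∀ v ∈ t, s.testBit (64 + v) = true) →
      (∀ u ∈ t, ∀ v ∈ t, u ≠ v → adj u v = true) → t.card ≤ k := by
  induction fuel with
  | zero => intro k s h; exact absurd h (by simp [nc])
  | succ n ih =>
    intro k s h t hts htc
    rw [nc_succ] at h
    rcases hb : Nat.ble 18446744073709551616 s with _ | _
    · -- no candidates
      have hlt : s < 18446744073709551616 := by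
        by_contra hcon
        rw [Nat.ble_eq_true_of_le (not_lt.1 hcon)] at hb
        exact absurd hb (by simp)
      have : t = ∅ := by
        rw [Finset.eq_empty_iff_forall_notMem]
        intro v hv
        have h1 := hts v hv
        rw [Nat.testBit_lt_two_pow] at h1
        · exact absurd h1 (by simp)
        · calc s < 2 ^ 64 := by norm_num; exact hlt
            _ ≤ 2 ^ (64 + v) := Nat.pow_le_pow_right (by norm_num) (by omega)
      rw [this]; simp
    · rw [hb] at h
      rcases k with _ | k'
      · exact absurd h (by simp)
      · simp only [force_eq] at h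
        have hg : Nat.gcd (Nat.shiftRight s 64) (Nat.pow 2 416) ∣ 2 ^ 416 := Nat.gcd_dvd_right _ _
        obtain ⟨t0, -, hg0⟩ := (Nat.dvd_prime_pow Nat.prime_two).1 hg
        rw [hg0] at h
        rw [Bool.and_eq_true] at h
        obtain ⟨h1, h2⟩ := h
        set sm : ℕ := Nat.mod (Nat.mul (Nat.mod (2 ^ t0) 419) 0x9E3779B97F4A7C15)
          18446744073709551616 with hsm
        have hsmlt : sm < 2 ^ 64 := Nat.mod_lt _ (by norm_num)
        have hbit : ∀ u, (Nat.xor (Nat.xor s (Nat.shiftLeft (2 ^ t0) 64)) sm).testBit (64 + u)
            = (s.testBit (64 + u) ^^ decide (t0 = u)) := by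
          intro u
          change ((s ^^^ ((2 ^ t0) <<< 64)) ^^^ sm).testBit (64 + u) = _
          rw [Nat.testBit_xor, Nat.testBit_xor, Nat.testBit_lt_two_pow
            (lt_of_lt_of_le hsmlt (Nat.pow_le_pow_right (by norm_num) (by omega))),
            Nat.testBit_shiftLeft, Nat.testBit_two_pow]
          have e1 : 64 + u - 64 = u := by omega
          have e2 : 64 ≤ 64 + u := by omega
          rw [e1]
          simp [e2]
        have hrow : ∀ u, (rowR (Nat.mod (2 ^ t0) 419)).testBit (64 + u) = adj t0 u := fun u => rfl
        by_cases ht0 : t0 ∈ t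
        · have hc := ih k' _ h1 (t.erase t0)
            (by
              intro v hv
              have hv' := Finset.mem_erase.1 hv
              change (_ &&& _ : ℕ).testBit (64 + v) = true
              rw [Nat.testBit_and, hrow, hbit, hts v hv'.2, htc t0 ht0 v hv'.2 (Ne.symm hv'.1)]
              simp [Ne.symm hv'.1])
            (fun u hu v hv huv => htc u (Finset.mem_of_mem_erase hu) v
              (Finset.mem_of_mem_erase hv) huv)
          rw [Finset.card_erase_of_mem ht0] at hc
          omega
        · exact ih (k' + 1) _ h2 t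
            (by
              intro v hv
              have hne : t0 ≠ v := fun h => ht0 (h ▸ hv)
              rw [hbit, hts v hv]
              simp [hne])
            htc

end Vale.Agent.H7.P052
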