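import Vale.Agent.H7.P052.Defs

namespace Vale.Agent.H7.P052

open Metric

/-- Counting argument: a finite set `f '' U ∪ {z}` of diameter `D` in which every subset of `U`
without pairs at distance `D` has at most `a` points, and at most `b` points if moreover it has no
point at distance `D` from `z`, is not a union of `k + 1` sets of diameter smaller than `D` when
`a * k + b < |U|`. -/
theorem not_splits {E : Type} [MetricSpace E] {ι : Type} [DecidableEq ι] (U : Finset ι)
    (f : ι → E) (z : E) (D : ℝ) (a b k : ℕ)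
    (h1 : ∀ u ∈ U, ∀ v ∈ U, dist (f u) (f v) ≤ D)
    (h2 : ∀ u ∈ U, dist z (f u) ≤ D)
    (h3 : ∃ u ∈ U, ∃ v ∈ U, dist (f u) (f v) = D)
    (ha : ∀ s : Finset ι, s ⊆ U → (∀ u ∈ s, ∀ v ∈ s, dist (f u) (f v) < D) → s.card ≤ a)
    (hb : ∀ s : Finset ι, s ⊆ U → (∀ u ∈ s, ∀ v ∈ s, dist (f u) (f v) < D) →
      (∀ u ∈ s, dist z (f u) < D) → s.card ≤ b)
    (hk : a * k + b < U.card) :
    Bornology.IsBounded (insert z (f '' (U : Set ι))) ∧
      Metric.diam (insert z (f '' (U : Set ι))) = D ∧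
      ¬ SplitsInto (insert z (f '' (U : Set ι))) (k + 1) := by
  classical
  set Y : Set E := insert z (f '' (U : Set ι)) with hY
  have hfin : Y.Finite := (U.finite_toSet.image f).insert z
  have hbdd : Bornology.IsBounded Y := hfin.isBounded
  obtain ⟨u0, hu0, v0, hv0, h0⟩ := h3
  have hD0 : 0 ≤ D := h0 ▸ dist_nonneg
  have hle : Metric.diam Y ≤ D := by
    apply Metric.diam_le_of_forall_dist_le hD0
    rintro x (rfl | ⟨u, hu, rfl⟩) y (rfl | ⟨v, hv, rfl⟩)
    · simpa using hD0
    · exact h2 v hv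
    · rw [dist_comm]; exact h2 u hu
    · exact h1 u hu v hv
  have hge : D ≤ Metric.diam Y := by
    rw [← h0]
    exact Metric.dist_le_diam_of_mem hbdd (Or.inr ⟨u0, hu0, rfl⟩) (Or.inr ⟨v0, hv0, rfl⟩)
  have hdiam : Metric.diam Y = D := le_antisymm hle hge
  refine ⟨hbdd, hdiam, ?_⟩
  rintro ⟨P, hP, hlt⟩
  rw [hdiam] at hlt
  have hsub : ∀ i, P i ⊆ Y := fun i => by
    rw [hP]; exact Set.subset_iUnion P i
  have hdist : ∀ i, ∀ x ∈ P i, ∀ y ∈ P i, dist x y < D := fun i x hx y hy =>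
    lt_of_le_of_lt (Metric.dist_le_diam_of_mem (hbdd.subset (hsub i)) hx hy) (hlt i)
  set s : Fin (k + 1) → Finset ι := fun i => U.filter (fun u => f u ∈ P i) with hs
  have hcover : U ⊆ Finset.univ.biUnion s := by
    intro u hu
    have : f u ∈ Y := Or.inr ⟨u, hu, rfl⟩
    rw [hP, Set.mem_iUnion] at this
    obtain ⟨i, hi⟩ := this
    exact Finset.mem_biUnion.2 ⟨i, Finset.mem_univ i, Finset.mem_filter.2 ⟨hu, hi⟩⟩
  have hz : z ∈ Y := Or.inl rfl
  rw [hP, Set.mem_iUnion] at hz
  obtain ⟨i0, hi0⟩ := hz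
  have hsa : ∀ i, (s i).card ≤ a := by
    intro i
    apply ha _ (Finset.filter_subset _ _)
    intro u hu v hv
    exact hdist i _ (Finset.mem_filter.1 hu).2 _ (Finset.mem_filter.1 hv).2
  have hsb : (s i0).card ≤ b := by
    apply hb _ (Finset.filter_subset _ _)
    · intro u hu v hv
      exact hdist i0 _ (Finset.mem_filter.1 hu).2 _ (Finset.mem_filter.1 hv).2
    · intro u hu
      exact hdist i0 _ hi0 _ (Finset.mem_filter.1 hu).2
  have hcard : U.card ≤ ∑ i, (s i).card :=
    (Finset.card_le_card hcover).trans Finset.card_biUnion_le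
  have hsum : ∑ i, (s i).card ≤ a * k + b := by
    rw [← Finset.add_sum_erase _ _ (Finset.mem_univ i0)]
    have : ∑ i ∈ Finset.univ.erase i0, (s i).card ≤ (Finset.univ.erase i0).card • a :=
      Finset.sum_le_card_nsmul _ _ _ (fun i _ => hsa i)
    rw [Finset.card_erase_of_mem (Finset.mem_univ _), Finset.card_univ, Fintype.card_fin,
      smul_eq_mul, Nat.add_sub_cancel] at this
    nlinarith
  omega

end Vale.Agent.H7.P052
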