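import Vale.Agent.H7.P052.Gram
import Vale.Agent.H7.P052.Count

namespace Vale.Agent.H7.P052

open Metric

theorem fail_of_gram {ι : Type} [Fintype ι] [DecidableEq ι] (d : ℕ) (M : ι → ι → ℤ)
    (hs : ∀ u v, M u v = M v u) (hsq : ∀ v w, ∑ u, M v u * M u w = 96 * M v w)
    (htr : ∑ v, M v v = 96 * d) (U : Finset ι) (w : ι)
    (hdiag : ∀ u ∈ U, M u u = 15) (hww : M w w = 13)
    (hUU : ∀ u ∈ U, ∀ v ∈ U, u ≠ v → M u v = 3 ∨ M u v = -1)
    (hwU : ∀ u ∈ U, M w u = 3 ∨ M w u = -1)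
    (h3 : ∃ u ∈ U, ∃ v ∈ U, M u v = -1)
    (no6 : ∀ s : Finset ι, s ⊆ U → (∀ u ∈ s, ∀ v ∈ s, u ≠ v → M u v = 3) → s.card ≤ 5)
    (no5 : ∀ s : Finset ι, s ⊆ U → (∀ u ∈ s, ∀ v ∈ s, u ≠ v → M u v = 3) →
      (∀ u ∈ s, M w u = 3) → s.card ≤ 4)
    (hcard : 5 * d + 4 < U.card) : ¬ BorsukConjecture d := by
  obtain ⟨φ, hφ⟩ := gram_realisation (Matrix.of fun u v => (M u v : ℝ))
    (by ext u v; simp [hs v u]) 96 (by norm_num) d
    (by
      ext v w
      simp only [Matrix.mul_apply, Matrix.of_apply, Matrix.smul_apply, smul_eq_mul]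
      exact_mod_cast hsq v w)
    (by
      simp only [Matrix.trace, Matrix.diag, Matrix.of_apply]
      exact_mod_cast htr)
  simp only [Matrix.of_apply] at hφ
  set lam : ℝ := (-1 + Real.sqrt 222) / 13 with hlam
  have h222 : Real.sqrt 222 * Real.sqrt 222 = 222 := Real.mul_self_sqrt (by norm_num)
  have hlamq : 13 * lam ^ 2 + 2 * lam = 17 := by
    rw [hlam]; ring_nf; nlinarith
  have hlampos : 0 < lam := by
    have : 1 < Real.sqrt 222 := by
      rw [show (1 : ℝ) = Real.sqrt 1 by simp]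
      exact Real.sqrt_lt_sqrt (by norm_num) (by norm_num)
    rw [hlam]; apply div_pos <;> linarith
  have hdd : ∀ u v, dist (φ u) (φ v) ^ 2 = M u u - 2 * M u v + M v v := by
    intro u v
    rw [dist_eq_norm, norm_sub_sq_real, ← real_inner_self_eq_norm_sq, ← real_inner_self_eq_norm_sq,
      hφ, hφ, hφ]
  have hdz : ∀ v, dist (lam • φ w) (φ v) ^ 2 = lam ^ 2 * M w w - 2 * lam * M w v + M v v := by
    intro v
    rw [dist_eq_norm, norm_sub_sq_real, norm_smul, mul_pow, ← real_inner_self_eq_norm_sq (φ w),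
      ← real_inner_self_eq_norm_sq (φ v), inner_smul_left, hφ, hφ, hφ]
    simp only [Real.norm_eq_abs, sq_abs, conj_trivial]
    ring
  set D : ℝ := Real.sqrt 32 with hD
  have hDpos : 0 < D := Real.sqrt_pos.2 (by norm_num)
  have hD2 : D ^ 2 = 32 := Real.sq_sqrt (by norm_num)
  -- distances inside `U`
  have key1 : ∀ u ∈ U, ∀ v ∈ U, dist (φ u) (φ v) ^ 2 ≤ 32 := by
    intro u hu v hv
    rw [hdd, hdiag u hu, hdiag v hv]
    by_cases h : u = v
    · subst h; rw [hdiag u hu]; norm_num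
    · rcases hUU u hu v hv h with h | h <;> rw [h] <;> norm_num
  have key1' : ∀ u ∈ U, ∀ v ∈ U, u ≠ v → dist (φ u) (φ v) < D → M u v = 3 := by
    intro u hu v hv huv hlt
    rcases hUU u hu v hv huv with h | h
    · exact h
    · exfalso
      have h2 := hdd u v
      rw [hdiag u hu, hdiag v hv, h] at h2
      have : dist (φ u) (φ v) ^ 2 < D ^ 2 := by
        apply pow_lt_pow_left₀ hlt dist_nonneg (by norm_num)
      rw [hD2, h2] at this
      norm_num at this
  have key2 : ∀ v ∈ U, dist (lam • φ w) (φ v) ^ 2 ≤ 32 := by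
    intro v hv
    rw [hdz, hdiag v hv, hww]
    rcases hwU v hv with h | h <;> rw [h] <;> push_cast <;> nlinarith
  have key2' : ∀ v ∈ U, dist (lam • φ w) (φ v) < D → M w v = 3 := by
    intro v hv hlt
    rcases hwU v hv with h | h
    · exact h
    · exfalso
      have h2 := hdz v
      rw [hdiag v hv, hww, h] at h2
      have : dist (lam • φ w) (φ v) ^ 2 < D ^ 2 := by
        apply pow_lt_pow_left₀ hlt dist_nonneg (by norm_num)
      rw [hD2, h2] at this
      push_cast at this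
      nlinarith
  have hle : ∀ x : ℝ, 0 ≤ x → x ^ 2 ≤ 32 → x ≤ D := by
    intro x hx hx2
    exact Real.le_sqrt_of_sq_le hx2
  obtain ⟨hb, hdiam, hns⟩ := not_splits U φ (lam • φ w) D 5 4 d
    (fun u hu v hv => hle _ dist_nonneg (key1 u hu v hv))
    (fun u hu => hle _ dist_nonneg (key2 u hu))
    (by
      obtain ⟨u, hu, v, hv, h⟩ := h3
      refine ⟨u, hu, v, hv, ?_⟩
      have h2 := hdd u v
      rw [hdiag u hu, hdiag v hv, h] at h2
      rw [hD, eq_comm, Real.sqrt_eq_iff_mul_self_eq (by norm_num) dist_nonneg, ← sq, h2]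
      norm_num)
    (fun s hsU hs => no6 s hsU (fun u hu v hv huv =>
      key1' u (hsU hu) v (hsU hv) huv (hs u hu v hv)))
    (fun s hsU hs hz => no5 s hsU (fun u hu v hv huv =>
      key1' u (hsU hu) v (hsU hv) huv (hs u hu v hv)) (fun u hu => key2' u (hsU hu) (hz u hu)))
    hcard
  intro hB
  exact hns (hB _ hb (by rw [hdiam]; exact hDpos))

end Vale.Agent.H7.P052
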