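import Vale.Agent.H7.P052.Square

namespace Vale.Agent.H7.P052

open Finset

attribute [local irreducible] bit

/-- block of a vertex: `0` outside `W`, and `1, 2, 3` for the three blocks of `W` -/
def blk (v : ℕ) : ℕ := if v < 320 then 0 else (v - 320) / 32 + 1

/-- `2` on the diagonal blocks of `W`, `-1` on the others, `0` outside `W` -/
def q (a c : ℕ) : ℤ := if a = 0 ∨ c = 0 then 0 else if a = c then 2 else -1

/-- the Gram matrix -/
def Mz (v w : ℕ) : ℤ := 16 * (if v = w then 1 else 0) + 4 * (bit v w : ℤ) - 1 - q (blk v) (blk w)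

theorem q_symm (a c : ℕ) : q a c = q c a := by
  unfold q
  by_cases h1 : a = 0 <;> by_cases h2 : c = 0 <;> by_cases h3 : a = c <;>
    simp [h1, h2, h3, eq_comm]

theorem Mz_symm {v w : ℕ} (hv : v < 416) (hw : w < 416) : Mz v w = Mz w v := by
  unfold Mz
  rw [bit_symm hv hw, q_symm]
  by_cases h : v = w
  · subst h; rfl
  · rw [if_neg h, if_neg (Ne.symm h)]

theorem blk_W {i j : ℕ} (hj : j < 32) : blk (320 + 32 * i + j) = i + 1 := by
  unfold blk
  rw [if_neg (by omega)]
  omega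

theorem blk_U {v : ℕ} (hv : v < 320) : blk v = 0 := by
  unfold blk; rw [if_pos hv]

theorem blk_cases {v : ℕ} (hv : v < 416) :
    v < 320 ∨ ∃ b a, b < 3 ∧ a < 32 ∧ v = 320 + 32 * b + a := by
  by_cases h : v < 320
  · exact Or.inl h
  · exact Or.inr ⟨(v - 320) / 32, (v - 320) % 32, by omega, by omega, by omega⟩

theorem split_sum (F : ℕ → ℤ) : ∑ u ∈ range 416, F u
    = ∑ u ∈ range 320, F u + ∑ i ∈ range 3, ∑ j ∈ range 32, F (320 + 32 * i + j) := by
  rw [show (416 : ℕ) = 320 + 32 + 32 + 32 from rfl, sum_range_add, sum_range_add, sum_range_add]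
  simp only [sum_range_succ (n := 2), sum_range_succ (n := 1), sum_range_succ (n := 0),
    sum_range_zero]
  simp only [mul_zero, mul_one, add_zero, zero_add]
  ring

/-- sums of `q`-columns -/
theorem sum_q (f : ℕ → ℤ) (c : ℕ) : ∑ u ∈ range 416, f u * q (blk u) c
    = ∑ i ∈ range 3, (∑ j ∈ range 32, f (320 + 32 * i + j)) * q (i + 1) c := by
  rw [split_sum]
  have h0 : ∑ u ∈ range 320, f u * q (blk u) c = 0 := by
    apply sum_eq_zero
    intro u hu
    rw [blk_U (mem_range.1 hu)]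
    simp [q]
  rw [h0, zero_add]
  apply sum_congr rfl
  intro i _
  rw [sum_mul]
  apply sum_congr rfl
  intro j hj
  rw [blk_W (mem_range.1 hj)]

theorem sum_one_q (c : ℕ) (hc : c ≤ 3) : ∑ u ∈ range 416, q (blk u) c = 0 := by
  have h := sum_q (fun _ => 1) c
  simp only [one_mul] at h
  rw [h]
  interval_cases c <;> simp [sum_range_succ, q]

theorem sum_qq (a c : ℕ) (ha : a ≤ 3) (hc : c ≤ 3) :
    ∑ u ∈ range 416, q a (blk u) * q (blk u) c = 96 * q a c := by
  rw [sum_q (fun u => q a (blk u)) c]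
  have : ∀ i ∈ range 3, (∑ j ∈ range 32, q a (blk (320 + 32 * i + j))) * q (i + 1) c
      = 32 * q a (i + 1) * q (i + 1) c := by
    intro i _
    congr 1
    rw [sum_congr rfl (fun j hj => by rw [blk_W (mem_range.1 hj)])]
    simp
  rw [sum_congr rfl this]
  interval_cases a <;> interval_cases c <;> simp [sum_range_succ, q]

theorem blk_le {v : ℕ} (hv : v < 416) : blk v ≤ 3 := by
  unfold blk; split_ifs <;> omega

theorem sum_bit_q {v : ℕ} (hv : v < 416) (c : ℕ) (hc : c ≤ 3) :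
    ∑ u ∈ range 416, (bit v u : ℤ) * q (blk u) c = 20 * q (blk v) c := by
  rw [sum_q (fun u => (bit v u : ℤ)) c]
  rcases blk_cases hv with h | ⟨b, a, hb, ha, rfl⟩
  · have : ∀ i ∈ range 3, (∑ j ∈ range 32, (bit v (320 + 32 * i + j) : ℤ)) * q (i + 1) c
        = 8 * q (i + 1) c := by
      intro i hi
      have h8 : (∑ j ∈ range 32, (bit v (320 + 32 * i + j) : ℤ)) = 8 := by
        rw [← Nat.cast_sum, cnt_U h (mem_range.1 hi)]; rfl
      rw [h8]
    rw [sum_congr rfl this, blk_U h]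
    interval_cases c <;> simp [sum_range_succ, q]
  · have : ∀ i ∈ range 3, (∑ j ∈ range 32, (bit (320 + 32 * b + a) (320 + 32 * i + j) : ℤ))
        * q (i + 1) c = (if i = b then 20 else 0) * q (i + 1) c := by
      intro i hi
      have h20 : (∑ j ∈ range 32, (bit (320 + 32 * b + a) (320 + 32 * i + j) : ℤ))
          = if i = b then 20 else 0 := by
        rw [← Nat.cast_sum, cnt_W hb ha (mem_range.1 hi)]
        split_ifs <;> rfl
      rw [h20]
    rw [sum_congr rfl this, blk_W ha]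
    simp only [ite_mul, zero_mul]
    rw [sum_ite_eq', if_pos (mem_range.2 hb)]

theorem Mz_sq {v w : ℕ} (hv : v < 416) (hw : w < 416) :
    ∑ u ∈ range 416, Mz v u * Mz u w = 96 * Mz v w := by
  have hexp : ∑ u ∈ range 416, Mz v u * Mz u w =
      256 * ∑ u ∈ range 416, (if v = u then (1 : ℤ) else 0) * (if u = w then 1 else 0)
      + 64 * ∑ u ∈ range 416, (if v = u then (1 : ℤ) else 0) * (bit u w : ℤ)
      - 16 * ∑ u ∈ range 416, (if v = u then (1 : ℤ) else 0)
      - 16 * ∑ u ∈ range 416, (if v = u then (1 : ℤ) else 0) * q (blk u) (blk w)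
      + 64 * ∑ u ∈ range 416, (bit v u : ℤ) * (if u = w then (1 : ℤ) else 0)
      + 16 * ∑ u ∈ range 416, (bit v u : ℤ) * (bit u w : ℤ)
      - 4 * ∑ u ∈ range 416, (bit v u : ℤ)
      - 4 * ∑ u ∈ range 416, (bit v u : ℤ) * q (blk u) (blk w)
      - 16 * ∑ u ∈ range 416, (if u = w then (1 : ℤ) else 0)
      - 4 * ∑ u ∈ range 416, (bit u w : ℤ)
      + ∑ u ∈ range 416, (1 : ℤ)
      + ∑ u ∈ range 416, q (blk u) (blk w)
      - 16 * ∑ u ∈ range 416, q (blk v) (blk u) * (if u = w then (1 : ℤ) else 0)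
      - 4 * ∑ u ∈ range 416, q (blk v) (blk u) * (bit u w : ℤ)
      + ∑ u ∈ range 416, q (blk v) (blk u)
      + ∑ u ∈ range 416, q (blk v) (blk u) * q (blk u) (blk w) := by
    simp only [mul_sum, ← sum_add_distrib, ← sum_sub_distrib]
    apply sum_congr rfl
    intro u _
    unfold Mz
    ring
  have e1 : ∀ g : ℕ → ℤ, ∑ u ∈ range 416, (if v = u then (1 : ℤ) else 0) * g u = g v := by
    intro g
    simp only [ite_mul, one_mul, zero_mul]
    rw [sum_ite_eq, if_pos (mem_range.2 hv)]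
  have e2 : ∀ g : ℕ → ℤ, ∑ u ∈ range 416, g u * (if u = w then (1 : ℤ) else 0) = g w := by
    intro g
    simp only [mul_ite, mul_one, mul_zero]
    rw [sum_ite_eq', if_pos (mem_range.2 hw)]
  have e1' : ∑ u ∈ range 416, (if v = u then (1 : ℤ) else 0) = 1 := by
    rw [sum_ite_eq, if_pos (mem_range.2 hv)]
  have e2' : ∑ u ∈ range 416, (if u = w then (1 : ℤ) else 0) = 1 := by
    rw [sum_ite_eq', if_pos (mem_range.2 hw)]
  have hsq : ∑ u ∈ range 416, (bit v u : ℤ) * (bit u w : ℤ)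
      = 80 * (if v = w then 1 else 0) + 16 * (bit v w : ℤ) + 20 := by
    have := bit_sq hv hw
    have h2 : ((∑ u ∈ range 416, bit v u * bit u w : ℕ) : ℤ)
      = ((80 * (if v = w then 1 else 0) + 16 * bit v w + 20 : ℕ) : ℤ) := by rw [this]
    push_cast at h2
    exact h2
  have hd1 : ∑ u ∈ range 416, (bit v u : ℤ) = 100 := by
    rw [← Nat.cast_sum, bit_deg hv]; rfl
  have hd2 : ∑ u ∈ range 416, (bit u w : ℤ) = 100 := by
    have h1 : ∑ u ∈ range 416, bit u w = ∑ u ∈ range 416, bit w u := by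
      apply sum_congr rfl
      intro u hu
      exact bit_symm (mem_range.1 hu) hw
    rw [← Nat.cast_sum, h1, bit_deg hw]; rfl
  have hq1 : ∑ u ∈ range 416, q (blk u) (blk w) = 0 := sum_one_q _ (blk_le hw)
  have hq2 : ∑ u ∈ range 416, q (blk v) (blk u) = 0 := by
    rw [← sum_one_q _ (blk_le hv)]
    apply sum_congr rfl; intro u _; exact q_symm _ _
  have hbq : ∑ u ∈ range 416, (bit v u : ℤ) * q (blk u) (blk w) = 20 * q (blk v) (blk w) :=
    sum_bit_q hv _ (blk_le hw)
  have hqb : ∑ u ∈ range 416, q (blk v) (blk u) * (bit u w : ℤ) = 20 * q (blk v) (blk w) := by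
    rw [q_symm (blk v), ← sum_bit_q hw _ (blk_le hv)]
    apply sum_congr rfl
    intro u hu
    rw [q_symm (blk v), bit_symm (mem_range.1 hu) hw, mul_comm]
  have hqq := sum_qq (blk v) (blk w) (blk_le hv) (blk_le hw)
  have hone : ∑ u ∈ range 416, (1 : ℤ) = 416 := by simp
  rw [hexp, e1 (fun u => if u = w then 1 else 0), e1 (fun u => (bit u w : ℤ)), e1',
    e1 (fun u => q (blk u) (blk w)), e2 (fun u => (bit v u : ℤ)), hsq, hd1, hbq, e2', hd2, hone,
    hq1, e2 (fun u => q (blk v) (blk u)), hqb, hq2, hqq]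
  unfold Mz
  ring

end Vale.Agent.H7.P052
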