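import Vale.Agent.H7.P052.Cliques
import Vale.Agent.H7.P052.MSq
import Vale.Agent.H7.P052.Assemble

namespace Vale.Agent.H7.P052

open Finset

attribute [local irreducible] bit adj

theorem bit01 : bit 0 1 = 0 := by decide +kernel

theorem adj_of_bit {u v : ℕ} (h : bit u v = 1) : adj u v = true := by
  rw [bit_eq] at h
  cases hb : adj u v
  · rw [hb] at h; simp at h
  · rfl

theorem borsuk_fails_63 : ¬ BorsukConjecture 63 := by
  set U : Finset (Fin 416) := Finset.univ.filter (fun v => v.val < 320) with hU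
  have memU : ∀ v, v ∈ U ↔ v.val < 320 := fun v => by simp [hU]
  have hMU : ∀ u ∈ U, ∀ v ∈ U, u ≠ v → Mz u v = 4 * (bit u v : ℤ) - 1 := by
    intro u hu v hv huv
    unfold Mz
    have hne : (u : ℕ) ≠ (v : ℕ) := fun h => huv (Fin.ext h)
    rw [if_neg hne, blk_U ((memU u).1 hu), blk_U ((memU v).1 hv)]
    simp [q]
  have hMw : ∀ u ∈ U, Mz 320 u = 4 * (bit 320 u : ℤ) - 1 := by
    intro u hu
    unfold Mz
    have hne : (320 : ℕ) ≠ (u : ℕ) := by have := (memU u).1 hu; omega
    rw [if_neg hne, blk_U ((memU u).1 hu)]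
    simp [q]
  have hbit : ∀ u v : ℕ, 4 * (bit u v : ℤ) - 1 = 3 ∨ 4 * (bit u v : ℤ) - 1 = -1 := by
    intro u v
    have := bit_le u v
    interval_cases h : bit u v
    · right; norm_num
    · left; norm_num
  have hbit1 : ∀ u v : ℕ, 4 * (bit u v : ℤ) - 1 = 3 → adj u v = true := by
    intro u v h
    apply adj_of_bit
    have h1 : (bit u v : ℤ) = 1 := by linarith
    exact_mod_cast h1
  have himg : ∀ s : Finset (Fin 416), (s.image (fun v : Fin 416 => v.val)).card = s.card :=
    fun s => Finset.card_image_of_injective _ Fin.val_injective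
  refine fail_of_gram (ι := Fin 416) 63 (fun u v => Mz u v) ?_ ?_ ?_ U ⟨320, by norm_num⟩
    ?_ ?_ ?_ ?_ ?_ ?_ ?_ ?_
  · intro u v; exact Mz_symm u.2 v.2
  · intro v w
    rw [Fin.sum_univ_eq_sum_range (fun u => Mz v u * Mz u w) 416]
    exact Mz_sq v.2 w.2
  · rw [Fin.sum_univ_eq_sum_range (fun u => Mz u u) 416, split_sum]
    have h1 : ∑ u ∈ range 320, Mz u u = 320 * 15 := by
      rw [sum_congr rfl (g := fun _ => (15 : ℤ))]
      · simp
      · intro u hu
        have hu' := mem_range.1 hu
        unfold Mz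
        rw [bit_self (by omega), blk_U hu']
        simp [q]
    have h2 : ∀ i ∈ range 3, ∑ j ∈ range 32, Mz (320 + 32 * i + j) (320 + 32 * i + j)
        = 32 * 13 := by
      intro i hi
      rw [sum_congr rfl (g := fun _ => (13 : ℤ))]
      · simp
      · intro j hj
        have hi' := mem_range.1 hi
        have hj' := mem_range.1 hj
        unfold Mz
        rw [bit_self (by omega), blk_W hj']
        simp [q]
    rw [h1, sum_congr rfl h2]
    simp
  · intro u hu
    have hu' := (memU u).1 hu
    change Mz u u = 15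
    unfold Mz
    rw [bit_self u.2, blk_U hu']
    simp [q]
  · change Mz 320 320 = 13
    unfold Mz
    rw [bit_self (by norm_num), show (320 : ℕ) = 320 + 32 * 0 + 0 from rfl, blk_W (by norm_num)]
    simp [q]
  · intro u hu v hv huv
    change Mz u v = 3 ∨ Mz u v = -1
    rw [hMU u hu v hv huv]
    exact hbit u v
  · intro u hu
    change Mz 320 u = 3 ∨ Mz 320 u = -1
    rw [hMw u hu]
    exact hbit 320 u
  · refine ⟨⟨0, by norm_num⟩, (memU _).2 (by norm_num), ⟨1, by norm_num⟩,
      (memU _).2 (by norm_num), ?_⟩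
    rw [hMU _ ((memU _).2 (by norm_num)) _ ((memU _).2 (by norm_num)) (by simp)]
    change 4 * (bit 0 1 : ℤ) - 1 = -1
    rw [bit01]; norm_num
  · intro s hs hc
    rw [← himg s]
    apply clique_le_five
    · intro v hv
      obtain ⟨v', hv', rfl⟩ := Finset.mem_image.1 hv
      exact (memU v').1 (hs hv')
    · intro u hu v hv huv
      obtain ⟨u', hu', rfl⟩ := Finset.mem_image.1 hu
      obtain ⟨v', hv', rfl⟩ := Finset.mem_image.1 hv
      have hne : u' ≠ v' := fun h => huv (by rw [h])
      apply hbit1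
      rw [← hMU u' (hs hu') v' (hs hv') hne]
      exact hc u' hu' v' hv' hne
  · intro s hs hc hw
    rw [← himg s]
    apply clique_le_four
    · intro v hv
      obtain ⟨v', hv', rfl⟩ := Finset.mem_image.1 hv
      exact (memU v').1 (hs hv')
    · intro u hu v hv huv
      obtain ⟨u', hu', rfl⟩ := Finset.mem_image.1 hu
      obtain ⟨v', hv', rfl⟩ := Finset.mem_image.1 hv
      have hne : u' ≠ v' := fun h => huv (by rw [h])
      apply hbit1
      rw [← hMU u' (hs hu') v' (hs hv') hne]
      exact hc u' hu' v' hv' hne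
    · intro v hv
      obtain ⟨v', hv', rfl⟩ := Finset.mem_image.1 hv
      apply hbit1
      rw [← hMw v' (hs hv')]
      exact hw v' hv'
  · have : U.card = 320 := by
      rw [hU, Fin.card_filter_val_lt]
      rfl
    rw [this]; norm_num

end Vale.Agent.H7.P052
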