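import Mathlib

namespace Vale.Agent.H7.P052

open Matrix

/-- A symmetric real matrix `M` with `M * M = c • M` and trace `c * d` is the Gram matrix of
vectors in `ℝ^d`. -/
theorem gram_realisation {ι : Type} [Fintype ι] [DecidableEq ι] (M : Matrix ι ι ℝ)
    (hs : M.transpose = M) (c : ℝ) (hc : 0 < c) (d : ℕ) (hsq : M * M = c • M)
    (htr : M.trace = c * d) :
    ∃ φ : ι → EuclideanSpace ℝ (Fin d), ∀ u v, inner ℝ (φ u) (φ v) = M u v := by
  classical
  set P : Matrix ι ι ℝ := c⁻¹ • M with hP
  have hPP : P * P = P := by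
    rw [hP, Matrix.smul_mul, Matrix.mul_smul, hsq, smul_smul, smul_smul]
    congr 1
    field_simp
  have hPs : P.transpose = P := by
    rw [hP, Matrix.transpose_smul, hs]
  have hPtr : P.trace = d := by
    rw [hP, Matrix.trace_smul, htr, smul_eq_mul]
    field_simp
  let T : EuclideanSpace ℝ ι →ₗ[ℝ] EuclideanSpace ℝ ι := Matrix.toEuclideanLin P
  have hTT : ∀ x, T (T x) = T x := by
    intro x
    simp only [T, Matrix.toEuclideanLin_apply, Matrix.mulVec_mulVec, hPP]
  have hproj : LinearMap.IsProj (LinearMap.range T) T := by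
    constructor
    · intro x
      exact LinearMap.mem_range_self T x
    · rintro _ ⟨y, rfl⟩
      exact hTT y
  have htrT : LinearMap.trace ℝ _ T = d := by
    simp only [T, Matrix.toEuclideanLin_eq_toLin]
    rw [Matrix.trace_toLin_eq, hPtr]
  have hfin : Module.finrank ℝ (LinearMap.range T) = d := by
    have := hproj.trace
    rw [htrT] at this
    exact_mod_cast this.symm
  let e : LinearMap.range T ≃ₗᵢ[ℝ] EuclideanSpace ℝ (Fin d) :=
    ((stdOrthonormalBasis ℝ (LinearMap.range T)).reindex (finCongr hfin)).repr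
  refine ⟨fun v => e ⟨Real.sqrt c • T (EuclideanSpace.single v 1),
    Submodule.smul_mem _ _ (LinearMap.mem_range_self T _)⟩, ?_⟩
  intro u v
  rw [LinearIsometryEquiv.inner_map_map]
  simp only [Submodule.coe_inner, inner_smul_left, inner_smul_right]
  have h1 : inner ℝ (T (EuclideanSpace.single u 1)) (T (EuclideanSpace.single v 1)) = P u v := by
    have : inner ℝ (T (EuclideanSpace.single u 1)) (T (EuclideanSpace.single v 1))
        = (P.transpose * P) u v := by
      simp only [T, Matrix.toEuclideanLin_apply, PiLp.inner_apply, Matrix.mul_apply,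
        Matrix.transpose_apply]
      refine Finset.sum_congr rfl fun i _ => ?_
      simp [mul_comm]
    rw [this, hPs, hPP]
  rw [h1, hP]
  simp only [Matrix.smul_apply, smul_eq_mul, conj_trivial]
  have : Real.sqrt c * (Real.sqrt c * (c⁻¹ * M u v)) = (Real.sqrt c * Real.sqrt c) * c⁻¹ * M u v := by
    ring
  rw [this, Real.mul_self_sqrt hc.le]
  field_simp

end Vale.Agent.H7.P052
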