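import Vale.Agent.H7.P052.MSq

namespace Vale.Agent.H7.P052

open Finset

attribute [local irreducible] bit

/-- general Gram matrix -/
def MG (κ : ℤ) (q : ℕ → ℕ → ℤ) (v w : ℕ) : ℤ :=
  κ * (16 * (if v = w then 1 else 0) + 4 * (bit v w : ℤ) - 1) - q (blk v) (blk w)

structure GoodQ (κ : ℤ) (q : ℕ → ℕ → ℤ) : Prop where
  z : ∀ c, q 0 c = 0
  s : ∀ a c, q a c = q c a
  o : ∀ c, c ≤ 3 → q 1 c + q 2 c + q 3 c = 0
  qq : ∀ a c, a ≤ 3 → c ≤ 3 →
    32 * (q a 1 * q 1 c + q a 2 * q 2 c + q a 3 * q 3 c) = 96 * κ * q a c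

variable {κ : ℤ} {q : ℕ → ℕ → ℤ}

theorem MG_symm (hq : GoodQ κ q) {v w : ℕ} (hv : v < 416) (hw : w < 416) :
    MG κ q v w = MG κ q w v := by
  unfold MG
  rw [bit_symm hv hw, hq.s]
  by_cases h : v = w
  · subst h; rfl
  · rw [if_neg h, if_neg (Ne.symm h)]

theorem sum_qG (hq : GoodQ κ q) (f : ℕ → ℤ) (c : ℕ) : ∑ u ∈ range 416, f u * q (blk u) c
    = ∑ i ∈ range 3, (∑ j ∈ range 32, f (320 + 32 * i + j)) * q (i + 1) c := by
  rw [split_sum]
  have h0 : ∑ u ∈ range 320, f u * q (blk u) c = 0 := by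
    apply sum_eq_zero
    intro u hu
    rw [blk_U (mem_range.1 hu), hq.z, mul_zero]
  rw [h0, zero_add]
  apply sum_congr rfl
  intro i _
  rw [sum_mul]
  apply sum_congr rfl
  intro j hj
  rw [blk_W (mem_range.1 hj)]

theorem sum_one_qG (hq : GoodQ κ q) (c : ℕ) (hc : c ≤ 3) :
    ∑ u ∈ range 416, q (blk u) c = 0 := by
  have h := sum_qG hq (fun _ => 1) c
  simp only [one_mul] at h
  rw [h]
  have h1 := hq.o c hc
  simp only [sum_range_succ, sum_range_zero, sum_const, card_range]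
  simp only [zero_add]
  norm_num
  linarith

theorem sum_qqG (hq : GoodQ κ q) (a c : ℕ) (ha : a ≤ 3) (hc : c ≤ 3) :
    ∑ u ∈ range 416, q a (blk u) * q (blk u) c = 96 * κ * q a c := by
  rw [sum_qG hq (fun u => q a (blk u)) c]
  have : ∀ i ∈ range 3, (∑ j ∈ range 32, q a (blk (320 + 32 * i + j))) * q (i + 1) c
      = 32 * (q a (i + 1) * q (i + 1) c) := by
    intro i _
    rw [sum_congr rfl (fun j hj => by rw [blk_W (mem_range.1 hj)])]
    simp
    ring
  rw [sum_congr rfl this, ← hq.qq a c ha hc]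
  simp [sum_range_succ]
  ring

theorem sum_bit_qG (hq : GoodQ κ q) {v : ℕ} (hv : v < 416) (c : ℕ) (hc : c ≤ 3) :
    ∑ u ∈ range 416, (bit v u : ℤ) * q (blk u) c = 20 * q (blk v) c := by
  rw [sum_qG hq (fun u => (bit v u : ℤ)) c]
  rcases blk_cases hv with h | ⟨b, a, hb, ha, rfl⟩
  · have : ∀ i ∈ range 3, (∑ j ∈ range 32, (bit v (320 + 32 * i + j) : ℤ)) * q (i + 1) c
        = 8 * q (i + 1) c := by
      intro i hi
      have h8 : (∑ j ∈ range 32, (bit v (320 + 32 * i + j) : ℤ)) = 8 := by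
        rw [← Nat.cast_sum, cnt_U h (mem_range.1 hi)]; rfl
      rw [h8]
    rw [sum_congr rfl this, blk_U h, hq.z]
    have h1 := hq.o c hc
    simp only [sum_range_succ, sum_range_zero]
    norm_num
    linarith
  · have : ∀ i ∈ range 3, (∑ j ∈ range 32, (bit (320 + 32 * b + a) (320 + 32 * i + j) : ℤ))
        * q (i + 1) c = (if i = b then 20 else 0) * q (i + 1) c := by
      intro i hi
      have h20 : (∑ j ∈ range 32, (bit (320 + 32 * b + a) (320 + 32 * i + j) : ℤ))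
          = if i = b then 20 else 0 := by
        rw [← Nat.cast_sum, cnt_W hb ha (mem_range.1 hi)]
        split_ifs <;> rfl
      rw [h20]
    rw [sum_congr rfl this, blk_W ha]
    simp only [ite_mul, zero_mul]
    rw [sum_ite_eq', if_pos (mem_range.2 hb)]

theorem MG_sq (hq : GoodQ κ q) {v w : ℕ} (hv : v < 416) (hw : w < 416) :
    ∑ u ∈ range 416, MG κ q v u * MG κ q u w = 96 * κ * MG κ q v w := by
  have hexp : ∑ u ∈ range 416, MG κ q v u * MG κ q u w =
      κ ^ 2 * (256 * ∑ u ∈ range 416, (if v = u then (1 : ℤ) else 0) * (if u = w then 1 else 0)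
      + 64 * ∑ u ∈ range 416, (if v = u then (1 : ℤ) else 0) * (bit u w : ℤ)
      - 16 * ∑ u ∈ range 416, (if v = u then (1 : ℤ) else 0)
      + 64 * ∑ u ∈ range 416, (bit v u : ℤ) * (if u = w then (1 : ℤ) else 0)
      + 16 * ∑ u ∈ range 416, (bit v u : ℤ) * (bit u w : ℤ)
      - 4 * ∑ u ∈ range 416, (bit v u : ℤ)
      - 16 * ∑ u ∈ range 416, (if u = w then (1 : ℤ) else 0)
      - 4 * ∑ u ∈ range 416, (bit u w : ℤ)
      + ∑ u ∈ range 416, (1 : ℤ))
      - κ * (16 * ∑ u ∈ range 416, (if v = u then (1 : ℤ) else 0) * q (blk u) (blk w)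
      + 4 * ∑ u ∈ range 416, (bit v u : ℤ) * q (blk u) (blk w)
      - ∑ u ∈ range 416, q (blk u) (blk w)
      + 16 * ∑ u ∈ range 416, q (blk v) (blk u) * (if u = w then (1 : ℤ) else 0)
      + 4 * ∑ u ∈ range 416, q (blk v) (blk u) * (bit u w : ℤ)
      - ∑ u ∈ range 416, q (blk v) (blk u))
      + ∑ u ∈ range 416, q (blk v) (blk u) * q (blk u) (blk w) := by
    simp only [mul_sum, ← sum_add_distrib, ← sum_sub_distrib]
    apply sum_congr rfl
    intro u _
    unfold MG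
    ring
  have e1 : ∀ g : ℕ → ℤ, ∑ u ∈ range 416, (if v = u then (1 : ℤ) else 0) * g u = g v := by
    intro g
    simp only [ite_mul, one_mul, zero_mul]
    rw [sum_ite_eq, if_pos (mem_range.2 hv)]
  have e2 : ∀ g : ℕ → ℤ, ∑ u ∈ range 416, g u * (if u = w then (1 : ℤ) else 0) = g w := by
    intro g
    simp only [mul_ite, mul_one, mul_zero]
    rw [sum_ite_eq', if_pos (mem_range.2 hw)]
  have e1' : ∑ u ∈ range 416, (if v = u then (1 : ℤ) else 0) = 1 := by
    rw [sum_ite_eq, if_pos (mem_range.2 hv)]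
  have e2' : ∑ u ∈ range 416, (if u = w then (1 : ℤ) else 0) = 1 := by
    rw [sum_ite_eq', if_pos (mem_range.2 hw)]
  have hsq : ∑ u ∈ range 416, (bit v u : ℤ) * (bit u w : ℤ)
      = 80 * (if v = w then 1 else 0) + 16 * (bit v w : ℤ) + 20 := by
    have := bit_sq hv hw
    have h2 : ((∑ u ∈ range 416, bit v u * bit u w : ℕ) : ℤ)
      = ((80 * (if v = w then 1 else 0) + 16 * bit v w + 20 : ℕ) : ℤ) := by rw [this]
    push_cast at h2
    exact h2
  have hd1 : ∑ u ∈ range 416, (bit v u : ℤ) = 100 := by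
    rw [← Nat.cast_sum, bit_deg hv]; rfl
  have hd2 : ∑ u ∈ range 416, (bit u w : ℤ) = 100 := by
    have h1 : ∑ u ∈ range 416, bit u w = ∑ u ∈ range 416, bit w u := by
      apply sum_congr rfl
      intro u hu
      exact bit_symm (mem_range.1 hu) hw
    rw [← Nat.cast_sum, h1, bit_deg hw]; rfl
  have hq1 : ∑ u ∈ range 416, q (blk u) (blk w) = 0 := sum_one_qG hq _ (blk_le hw)
  have hq2 : ∑ u ∈ range 416, q (blk v) (blk u) = 0 := by
    rw [← sum_one_qG hq _ (blk_le hv)]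
    apply sum_congr rfl; intro u _; exact hq.s _ _
  have hbq : ∑ u ∈ range 416, (bit v u : ℤ) * q (blk u) (blk w) = 20 * q (blk v) (blk w) :=
    sum_bit_qG hq hv _ (blk_le hw)
  have hqb : ∑ u ∈ range 416, q (blk v) (blk u) * (bit u w : ℤ) = 20 * q (blk v) (blk w) := by
    rw [hq.s (blk v), ← sum_bit_qG hq hw _ (blk_le hv)]
    apply sum_congr rfl
    intro u hu
    rw [hq.s (blk v), bit_symm (mem_range.1 hu) hw, mul_comm]
  have hqq := sum_qqG hq (blk v) (blk w) (blk_le hv) (blk_le hw)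
  have hone : ∑ u ∈ range 416, (1 : ℤ) = 416 := by simp
  rw [hexp, e1 (fun u => if u = w then 1 else 0), e1 (fun u => (bit u w : ℤ)), e1',
    e1 (fun u => q (blk u) (blk w)), e2 (fun u => (bit v u : ℤ)), hsq, hd1, hbq, e2', hd2, hone,
    hq1, e2 (fun u => q (blk v) (blk u)), hqb, hq2, hqq]
  unfold MG
  ring

theorem MG_trace (hq : GoodQ κ q) : ∑ u ∈ range 416, MG κ q u u
    = κ * 6240 - 32 * (q 1 1 + q 2 2 + q 3 3) := by
  rw [split_sum]
  have h1 : ∑ u ∈ range 320, MG κ q u u = 320 * (κ * 15) := by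
    rw [sum_congr rfl (g := fun _ => κ * 15)]
    · simp
    · intro u hu
      have hu' := mem_range.1 hu
      unfold MG
      rw [bit_self (by omega), blk_U hu', hq.z]
      simp
  have h2 : ∀ i ∈ range 3, ∑ j ∈ range 32, MG κ q (320 + 32 * i + j) (320 + 32 * i + j)
      = 32 * (κ * 15 - q (i + 1) (i + 1)) := by
    intro i hi
    rw [sum_congr rfl (g := fun _ => κ * 15 - q (i + 1) (i + 1))]
    · simp
      ring
    · intro j hj
      have hi' := mem_range.1 hi
      have hj' := mem_range.1 hj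
      unfold MG
      rw [bit_self (by omega), blk_W hj']
      simp
  rw [h1, sum_congr rfl h2]
  simp [sum_range_succ]
  ring

end Vale.Agent.H7.P052
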