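import Vale.Agent.H7.P052.Defs

namespace Vale.Agent.H7.P052

open Metric

/-- Weighted counting argument. -/
theorem not_splits_weighted {E : Type} [MetricSpace E] {ι : Type} [Fintype ι] [DecidableEq ι]
    (f : ι → E) (D : ℝ) (wt : ι → ℕ) (a k : ℕ)
    (h1 : ∀ u v, dist (f u) (f v) ≤ D)
    (h3 : ∃ u v, dist (f u) (f v) = D)
    (ha : ∀ s : Finset ι, (∀ u ∈ s, ∀ v ∈ s, dist (f u) (f v) < D) → ∑ u ∈ s, wt u ≤ a)
    (hk : a * k < ∑ u, wt u) :
    Bornology.IsBounded (Set.range f) ∧ Metric.diam (Set.range f) = D ∧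
      ¬ SplitsInto (Set.range f) k := by
  classical
  set Y : Set E := Set.range f with hY
  have hfin : Y.Finite := Set.finite_range f
  have hbdd : Bornology.IsBounded Y := hfin.isBounded
  obtain ⟨u0, v0, h0⟩ := h3
  have hD0 : 0 ≤ D := h0 ▸ dist_nonneg
  have hle : Metric.diam Y ≤ D := by
    apply Metric.diam_le_of_forall_dist_le hD0
    rintro _ ⟨u, rfl⟩ _ ⟨v, rfl⟩
    exact h1 u v
  have hge : D ≤ Metric.diam Y := by
    rw [← h0]
    exact Metric.dist_le_diam_of_mem hbdd ⟨u0, rfl⟩ ⟨v0, rfl⟩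
  have hdiam : Metric.diam Y = D := le_antisymm hle hge
  refine ⟨hbdd, hdiam, ?_⟩
  rintro ⟨P, hP, hlt⟩
  rw [hdiam] at hlt
  have hsub : ∀ i, P i ⊆ Y := fun i => by
    rw [hP]; exact Set.subset_iUnion P i
  have hdist : ∀ i, ∀ x ∈ P i, ∀ y ∈ P i, dist x y < D := fun i x hx y hy =>
    lt_of_le_of_lt (Metric.dist_le_diam_of_mem (hbdd.subset (hsub i)) hx hy) (hlt i)
  set s : Fin k → Finset ι := fun i => Finset.univ.filter (fun u => f u ∈ P i) with hs
  have hcover : ∀ u, ∃ i, f u ∈ P i := by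
    intro u
    have : f u ∈ Y := ⟨u, rfl⟩
    rw [hP, Set.mem_iUnion] at this
    exact this
  have hsa : ∀ i, ∑ u ∈ s i, wt u ≤ a := by
    intro i
    apply ha
    intro u hu v hv
    exact hdist i _ (Finset.mem_filter.1 hu).2 _ (Finset.mem_filter.1 hv).2
  have hcard : ∑ u, wt u ≤ ∑ i, ∑ u ∈ s i, wt u := by
    simp only [hs, Finset.sum_filter]
    rw [Finset.sum_comm]
    apply Finset.sum_le_sum
    intro u _
    obtain ⟨i, hi⟩ := hcover u
    calc wt u = if f u ∈ P i then wt u else 0 := by rw [if_pos hi]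
      _ ≤ ∑ j, if f u ∈ P j then wt u else 0 :=
        Finset.single_le_sum (f := fun j => if f u ∈ P j then wt u else 0)
          (fun j _ => Nat.zero_le _) (Finset.mem_univ i)
  have hsum : ∑ i, ∑ u ∈ s i, wt u ≤ a * k := by
    calc ∑ i, ∑ u ∈ s i, wt u ≤ ∑ _i : Fin k, a := Finset.sum_le_sum fun i _ => hsa i
      _ = a * k := by simp [mul_comm]
  omega

end Vale.Agent.H7.P052
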