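import Vale.Agent.H7.P052.FullClique
import Vale.Agent.H7.P052.MGen
import Vale.Agent.H7.P052.Weighted
import Vale.Agent.H7.P052.Gram
import Vale.Agent.H7.P052.Dim63

namespace Vale.Agent.H7.P052

open Finset

attribute [local irreducible] bit adj

theorem fails_of_space {E : Type} [NormedAddCommGroup E] [InnerProductSpace ℝ E]
    [FiniteDimensional ℝ E] (d : ℕ) (hd : Module.finrank ℝ E = d) (Y : Set E)
    (hb : Bornology.IsBounded Y) (hpos : 0 < Metric.diam Y) (hns : ¬ SplitsInto Y (d + 1)) :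
    ¬ BorsukConjecture d := by
  intro hB
  let e : E ≃ₗᵢ[ℝ] EuclideanSpace ℝ (Fin d) :=
    ((stdOrthonormalBasis ℝ E).reindex (finCongr hd)).repr
  have hdiam : ∀ s : Set E, Metric.diam (e '' s) = Metric.diam s :=
    fun s => e.isometry.diam_image s
  have h := hB (e '' Y) (e.lipschitz.isBounded_image hb) (by rw [hdiam]; exact hpos)
  obtain ⟨P, hP, hlt⟩ := h
  refine hns ⟨fun i => e ⁻¹' (P i), ?_, ?_⟩
  · rw [← Set.preimage_iUnion, ← hP, Set.preimage_image_eq _ e.injective]
  · intro i
    have h1 := hlt i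
    rw [hdiam] at h1
    have h2 : Metric.diam (e ⁻¹' (P i)) = Metric.diam (P i) := by
      rw [← hdiam, Set.image_preimage_eq _ e.surjective]
    rw [h2]; exact h1

/-- block function for the 64-dimensional section -/
def q64 (a c : ℕ) : ℤ :=
  if (a = 2 ∨ a = 3) ∧ (c = 2 ∨ c = 3) then (if a = c then 3 else -3) else 0

theorem goodQ64 : GoodQ 2 q64 where
  z := fun c => by simp [q64]
  s := fun a c => by
    unfold q64
    by_cases h1 : a = 2 ∨ a = 3 <;> by_cases h2 : c = 2 ∨ c = 3 <;> simp [h1, h2, eq_comm]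
  o := fun c hc => by interval_cases c <;> simp [q64]
  qq := fun a c ha hc => by interval_cases a <;> interval_cases c <;> simp [q64]

theorem gram64 : ∃ φ : Fin 416 → EuclideanSpace ℝ (Fin 64), ∀ u v : Fin 416,
    inner ℝ (φ u) (φ v) = (MG 2 q64 u v : ℝ) / 2 := by
  obtain ⟨φ, hφ⟩ := gram_realisation (ι := Fin 416)
    (Matrix.of fun u v => (MG 2 q64 u v : ℝ) / 2)
    (by ext u v; simp [MG_symm goodQ64 u.2 v.2]) 96 (by norm_num) 64
    (by
      ext v w
      simp only [Matrix.mul_apply, Matrix.of_apply, Matrix.smul_apply, smul_eq_mul]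
      have h := MG_sq goodQ64 v.2 w.2
      rw [← Fin.sum_univ_eq_sum_range (fun u => MG 2 q64 v u * MG 2 q64 u w) 416] at h
      have h' : (∑ u : Fin 416, (MG 2 q64 v u : ℝ) * (MG 2 q64 u w : ℝ))
          = 96 * 2 * (MG 2 q64 v w : ℝ) := by exact_mod_cast h
      have : ∑ u : Fin 416, (MG 2 q64 v u : ℝ) / 2 * ((MG 2 q64 u w : ℝ) / 2)
          = (∑ u : Fin 416, (MG 2 q64 v u : ℝ) * (MG 2 q64 u w : ℝ)) / 4 := by
        rw [Finset.sum_div]; apply sum_congr rfl; intro u _; ring
      rw [this, h']; ring)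
    (by
      simp only [Matrix.trace, Matrix.diag, Matrix.of_apply]
      have h := MG_trace goodQ64
      rw [← Fin.sum_univ_eq_sum_range (fun u => MG 2 q64 u u) 416] at h
      rw [← Finset.sum_div]
      have h' : (∑ u : Fin 416, (MG 2 q64 u u : ℝ)) = 12288 := by
        have : ∑ u : Fin 416, MG 2 q64 u u = 12288 := by rw [h]; simp [q64]
        exact_mod_cast this
      rw [h']; norm_num)
  exact ⟨φ, hφ⟩

theorem blk_lt {v : ℕ} (hv : v < 352) : blk v = 0 ∨ blk v = 1 := by
  unfold blk
  split_ifs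
  · exact Or.inl rfl
  · right; omega

theorem MG64_diag {v : ℕ} (hv : v < 352) : (MG 2 q64 v v : ℝ) / 2 = 15 := by
  unfold MG
  rw [bit_self (by omega)]
  rcases blk_lt hv with h | h <;> rw [h] <;> simp [q64] <;> norm_num

theorem MG64_off {u v : ℕ} (hu : u < 352) (hv : v < 352) (huv : u ≠ v) :
    (MG 2 q64 u v : ℝ) / 2 = 4 * (bit u v : ℝ) - 1 := by
  unfold MG
  rw [if_neg huv]
  rcases blk_lt hu with h | h <;> rcases blk_lt hv with h' | h' <;> rw [h, h'] <;>
    simp [q64]

/-- a regular simplex at the right distance -/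
theorem simplex_exists (m : ℕ) : ∃ x : Fin m → EuclideanSpace ℝ (Fin m),
    (∀ j, ‖x j‖ ^ 2 = 17) ∧ (∀ i j, i ≠ j → ‖x i - x j‖ ^ 2 = 32) := by
  rcases Nat.eq_zero_or_pos m with rfl | hm
  · exact ⟨fun j => j.elim0, fun j => j.elim0, fun j => j.elim0⟩
  · set s : ℝ := (-4 + Real.sqrt (16 + m)) / m with hs
    have hm' : (m : ℝ) ≠ 0 := by positivity
    have hsq : Real.sqrt (16 + m) * Real.sqrt (16 + m) = 16 + m :=
      Real.mul_self_sqrt (by positivity)
    have hs1 : 8 * s + m * s ^ 2 = 1 := by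
      have h1 : m * s = -4 + Real.sqrt (16 + m) := by rw [hs]; field_simp
      have h2 : m * (8 * s + m * s ^ 2) = m * 1 := by
        have : m * (8 * s + m * s ^ 2) = 8 * (m * s) + (m * s) * (m * s) := by ring
        rw [this, h1]
        ring_nf
        ring_nf at hsq
        linarith
      exact mul_left_cancel₀ hm' h2
    refine ⟨fun j => WithLp.toLp 2 fun i => (if i = j then 4 else 0) + s, ?_, ?_⟩
    · intro j
      rw [EuclideanSpace.norm_sq_eq]
      simp only [Real.norm_eq_abs, sq_abs]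
      have : ∀ i : Fin m, ((if i = j then (4 : ℝ) else 0) + s) ^ 2
          = (if i = j then 16 + 8 * s else 0) + s ^ 2 := by
        intro i; split_ifs <;> ring
      rw [sum_congr rfl (fun i _ => this i), sum_add_distrib, sum_ite_eq' univ j,
        if_pos (mem_univ j), sum_const, card_univ, Fintype.card_fin, nsmul_eq_mul]
      linarith
    · intro i j hij
      rw [EuclideanSpace.norm_sq_eq]
      simp only [Real.norm_eq_abs, sq_abs, PiLp.sub_apply]
      have : ∀ k : Fin m, ((if k = i then (4 : ℝ) else 0) + s - ((if k = j then 4 else 0) + s)) ^ 2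
          = (if k = i then 16 else 0) + (if k = j then 16 else 0) := by
        intro k
        by_cases h1 : k = i
        · subst h1; simp [hij]; norm_num
        · by_cases h2 : k = j
          · subst h2; simp [h1]; norm_num
          · simp [h1, h2]
      rw [sum_congr rfl (fun k _ => this k), sum_add_distrib, sum_ite_eq' univ i,
        if_pos (mem_univ i), sum_ite_eq' univ j, if_pos (mem_univ j)]
      norm_num

theorem borsuk_fails_ge64 (m : ℕ) : ¬ BorsukConjecture (64 + m) := by
  classical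
  obtain ⟨φ, hφ⟩ := gram64
  obtain ⟨x, hx1, hx2⟩ := simplex_exists m
  let ι := {v : Fin 416 // v.val < 352} ⊕ Fin m
  let E := WithLp 2 (EuclideanSpace ℝ (Fin 64) × EuclideanSpace ℝ (Fin m))
  let f : ι → E := fun i => match i with
    | Sum.inl v => WithLp.toLp 2 (φ v.1, 0)
    | Sum.inr j => WithLp.toLp 2 (0, x j)
  have hnorm : ∀ a : E, ‖a‖ ^ 2 = ‖a.fst‖ ^ 2 + ‖a.snd‖ ^ 2 := fun a =>
    WithLp.prod_norm_sq_eq_of_L2 a
  have hφφ : ∀ u v : Fin 416, u.val < 352 → v.val < 352 → u ≠ v →
      ‖φ u - φ v‖ ^ 2 = 32 - 8 * (bit u v : ℝ) := by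
    intro u v hu hv huv
    rw [norm_sub_sq_real, ← real_inner_self_eq_norm_sq, ← real_inner_self_eq_norm_sq,
      hφ, hφ, hφ, MG64_diag hu, MG64_diag hv,
      MG64_off hu hv (fun h => huv (Fin.ext h))]
    ring
  have hφn : ∀ u : Fin 416, u.val < 352 → ‖φ u‖ ^ 2 = 15 := by
    intro u hu
    rw [← real_inner_self_eq_norm_sq, hφ, MG64_diag hu]
  have hll : ∀ u v : {v : Fin 416 // v.val < 352}, u ≠ v →
      dist (f (Sum.inl u)) (f (Sum.inl v)) ^ 2 = 32 - 8 * (bit u.1 v.1 : ℝ) := by
    intro u v huv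
    rw [dist_eq_norm, hnorm]
    have : ‖φ u.1 - φ v.1‖ ^ 2 + ‖(0 : EuclideanSpace ℝ (Fin m)) - 0‖ ^ 2
        = 32 - 8 * (bit u.1 v.1 : ℝ) := by
      rw [hφφ u.1 v.1 u.2 v.2 (fun h => huv (Subtype.ext h))]; simp
    exact this
  have hlr : ∀ (u : {v : Fin 416 // v.val < 352}) (j : Fin m),
      dist (f (Sum.inl u)) (f (Sum.inr j)) ^ 2 = 32 := by
    intro u j
    rw [dist_eq_norm, hnorm]
    have : ‖φ u.1 - 0‖ ^ 2 + ‖(0 : EuclideanSpace ℝ (Fin m)) - x j‖ ^ 2 = 32 := by
      rw [sub_zero, zero_sub, norm_neg, hφn u.1 u.2, hx1]; norm_num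
    exact this
  have hrr : ∀ i j : Fin m, i ≠ j → dist (f (Sum.inr i)) (f (Sum.inr j)) ^ 2 = 32 := by
    intro i j hij
    rw [dist_eq_norm, hnorm]
    have : ‖(0 : EuclideanSpace ℝ (Fin 64)) - 0‖ ^ 2 + ‖x i - x j‖ ^ 2 = 32 := by
      rw [hx2 i j hij]; simp
    exact this
  set D : ℝ := Real.sqrt 32 with hD
  have hD2 : D ^ 2 = 32 := Real.sq_sqrt (by norm_num)
  have hDpos : 0 < D := Real.sqrt_pos.2 (by norm_num)
  have hle : ∀ y : ℝ, 0 ≤ y → y ^ 2 ≤ 32 → y ≤ D := fun y _ h => Real.le_sqrt_of_sq_le h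
  have hnlt : ∀ y : ℝ, 0 ≤ y → y ^ 2 = 32 → ¬ y < D := by
    intro y hy h hlt
    have : y ^ 2 < D ^ 2 := pow_lt_pow_left₀ hlt hy (by norm_num)
    rw [hD2, h] at this
    exact lt_irrefl _ this
  have hbitr : ∀ u v : ℕ, (0 : ℝ) ≤ (bit u v : ℝ) := fun u v => by positivity
  obtain ⟨hb, hdiam, hns⟩ := not_splits_weighted f D
    (fun i => match i with | Sum.inl _ => 1 | Sum.inr _ => 5) 5 (64 + m + 1)
    (by
      rintro (u | i) (v | j)
      · by_cases h : u = v
        · subst h; rw [dist_self]; exact hDpos.le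
        · apply hle _ dist_nonneg
          rw [hll u v h]
          have := hbitr u.1 v.1
          linarith
      · exact hle _ dist_nonneg (hlr u j).le
      · rw [dist_comm]; exact hle _ dist_nonneg (hlr v i).le
      · by_cases h : i = j
        · subst h; rw [dist_self]; exact hDpos.le
        · exact hle _ dist_nonneg (hrr i j h).le)
    (by
      refine ⟨Sum.inl ⟨⟨0, by norm_num⟩, by norm_num⟩, Sum.inl ⟨⟨1, by norm_num⟩, by norm_num⟩, ?_⟩
      have h := hll ⟨⟨0, by norm_num⟩, by norm_num⟩ ⟨⟨1, by norm_num⟩, by norm_num⟩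
        (by simp)
      have h0 : (bit 0 1 : ℝ) = 0 := by rw [bit01]; simp
      have h1 : dist (f (Sum.inl ⟨⟨0, by norm_num⟩, by norm_num⟩))
          (f (Sum.inl ⟨⟨1, by norm_num⟩, by norm_num⟩)) ^ 2 = 32 := by
        rw [h]
        change 32 - 8 * (bit 0 1 : ℝ) = 32
        rw [h0]; norm_num
      rw [hD, eq_comm, Real.sqrt_eq_iff_mul_self_eq (by norm_num) dist_nonneg, ← sq]
      exact h1.symm)
    (by
      intro s hs
      by_cases hex : ∃ j, Sum.inr j ∈ s
      · obtain ⟨j, hj⟩ := hex
        have : s = {Sum.inr j} := by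
          rw [Finset.eq_singleton_iff_unique_mem]
          refine ⟨hj, ?_⟩
          rintro (u | i) hi
          · exact absurd (hs _ hi _ hj) (hnlt _ dist_nonneg (hlr u j))
          · by_contra hne
            exact absurd (hs _ hi _ hj) (hnlt _ dist_nonneg
              (hrr i j (fun h => hne (by rw [h]))))
        rw [this]; simp
      · push Not at hex
        have hall : ∀ i ∈ s, ∃ u : {v : Fin 416 // v.val < 352}, i = Sum.inl u := by
          rintro (u | j) hi
          · exact ⟨u, rfl⟩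
          · exact absurd hi (hex j)
        have hsum : ∑ u ∈ s, (match u with | Sum.inl _ => 1 | Sum.inr _ => 5 : ℕ) = s.card := by
          rw [Finset.card_eq_sum_ones]
          apply sum_congr rfl
          intro i hi
          obtain ⟨u, rfl⟩ := hall i hi
          rfl
        rw [hsum]
        let g : ι → ℕ := fun i => match i with | Sum.inl u => u.1.val | Sum.inr _ => 0
        have hg : (s.image g).card = s.card := by
          apply Finset.card_image_of_injOn
          intro a ha b hb hab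
          obtain ⟨u, rfl⟩ := hall a ha
          obtain ⟨v, rfl⟩ := hall b hb
          have : u.1.val = v.1.val := hab
          rw [Subtype.ext (Fin.ext this)]
        rw [← hg]
        apply clique_card_le
        · intro v hv
          obtain ⟨i, hi, rfl⟩ := Finset.mem_image.1 hv
          obtain ⟨u, rfl⟩ := hall i hi
          exact u.1.2
        · intro a ha b hb hab
          obtain ⟨i, hi, rfl⟩ := Finset.mem_image.1 ha
          obtain ⟨j, hj, rfl⟩ := Finset.mem_image.1 hb
          obtain ⟨u, rfl⟩ := hall i hi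
          obtain ⟨v, rfl⟩ := hall j hj
          have hne : u ≠ v := fun h => hab (by rw [h])
          have hlt := hs _ hi _ hj
          apply adj_of_bit
          change bit u.1 v.1 = 1
          have hb1 := bit_le u.1 v.1
          rcases Nat.lt_or_ge (bit u.1 v.1) 1 with h0 | h1
          · exfalso
            have h00 : bit u.1 v.1 = 0 := by omega
            have h2 := hll u v hne
            rw [h00] at h2
            refine hnlt _ dist_nonneg ?_ hlt
            rw [h2]; norm_num
          · omega)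
    (by
      rw [Fintype.sum_sum_type]
      simp only [sum_const, card_univ, Fintype.card_fin, smul_eq_mul]
      have : Fintype.card {v : Fin 416 // v.val < 352} = 352 := by
        rw [Fintype.card_subtype, Fin.card_filter_val_lt]; rfl
      rw [this]
      omega)
  refine fails_of_space (E := E) (64 + m) ?_ _ hb (by rw [hdiam]; exact hDpos) hns
  have h1 : Module.finrank ℝ E = Module.finrank ℝ
      (EuclideanSpace ℝ (Fin 64) × EuclideanSpace ℝ (Fin m)) :=
    (WithLp.linearEquiv 2 ℝ (EuclideanSpace ℝ (Fin 64) × EuclideanSpace ℝ (Fin m))).finrank_eq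
  rw [h1, Module.finrank_prod, finrank_euclideanSpace_fin, finrank_euclideanSpace_fin]

theorem borsuk_fails_ge63 (d : ℕ) (hd : 63 ≤ d) : ¬ BorsukConjecture d := by
  rcases Nat.eq_or_lt_of_le hd with h | h
  · rw [← h]; exact borsuk_fails_63
  · obtain ⟨m, rfl⟩ := Nat.exists_eq_add_of_le (show 64 ≤ d from h)
    exact borsuk_fails_ge64 m

end Vale.Agent.H7.P052
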