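import Vale.Agent.H7.P052.SumDefs

namespace Vale.Agent.H7.P052

set_option maxRecDepth 100000

theorem sq_ok : allTo 416 checkSq = true := by decide +kernel

theorem symm_ok : allTo 416 checkSymm = true := by decide +kernel

theorem irr_ok : allTo 416 (fun v => Nat.beq (bit v v) 0) = true := by decide +kernel

theorem u_ok : checkU = true := by decide +kernel

theorem w_ok : checkW = true := by decide +kernel

end Vale.Agent.H7.P052
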