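import Vale.Agent.H7.P052.ChunkDefs

namespace Vale.Agent.H7.P052

set_option maxRecDepth 100000

theorem chunk_0 : chunk 0 4 = true := by decide +kernel

theorem chunk_4 : chunk 4 4 = true := by decide +kernel

theorem chunk_8 : chunk 8 4 = true := by decide +kernel

theorem chunk_12 : chunk 12 4 = true := by decide +kernel

theorem chunk_16 : chunk 16 4 = true := by decide +kernel

theorem chunk_20 : chunk 20 4 = true := by decide +kernel

end Vale.Agent.H7.P052
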