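import Vale.Agent.H7.P052.ChunkDefs

namespace Vale.Agent.H7.P052

set_option maxRecDepth 100000

theorem chunk_24 : chunk 24 5 = true := by decide +kernel

theorem chunk_29 : chunk 29 5 = true := by decide +kernel

theorem chunk_34 : chunk 34 5 = true := by decide +kernel

theorem chunk_39 : chunk 39 6 = true := by decide +kernel

theorem chunk_45 : chunk 45 6 = true := by decide +kernel

theorem chunk_51 : chunk 51 6 = true := by decide +kernel

end Vale.Agent.H7.P052
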