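import Vale.Agent.H7.P052.ChunkDefs

namespace Vale.Agent.H7.P052

set_option maxRecDepth 100000

theorem chunk_57 : chunk 57 6 = true := by decide +kernel

theorem chunk_63 : chunk 63 7 = true := by decide +kernel

theorem chunk_70 : chunk 70 7 = true := by decide +kernel

theorem chunk_77 : chunk 77 9 = true := by decide +kernel

theorem chunk_86 : chunk 86 10 = true := by decide +kernel

theorem chunk_96 : chunk 96 9 = true := by decide +kernel

end Vale.Agent.H7.P052
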