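import Vale.Agent.H7.P052.ChunkDefs

namespace Vale.Agent.H7.P052

set_option maxRecDepth 100000

theorem chunk_105 : chunk 105 10 = true := by decide +kernel

theorem chunk_115 : chunk 115 13 = true := by decide +kernel

theorem chunk_128 : chunk 128 13 = true := by decide +kernel

theorem chunk_141 : chunk 141 25 = true := by decide +kernel

theorem chunk_166 : chunk 166 48 = true := by decide +kernel

theorem chunk_214 : chunk 214 106 = true := by decide +kernel

theorem no5_ok : nc 400 4 (Nat.land (vrow 320)
    (Nat.shiftLeft (Nat.sub (Nat.pow 2 320) 1) 64)) = true := by decide +kernel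

end Vale.Agent.H7.P052
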