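import Vale.Agent.H7.P052.FullDefs

namespace Vale.Agent.H7.P052

set_option maxRecDepth 100000

theorem chunkF_0 : chunkF 0 2 = true := by decide +kernel

theorem chunkF_2 : chunkF 2 2 = true := by decide +kernel

theorem chunkF_4 : chunkF 4 2 = true := by decide +kernel

theorem chunkF_6 : chunkF 6 2 = true := by decide +kernel

theorem chunkF_8 : chunkF 8 2 = true := by decide +kernel

theorem chunkF_10 : chunkF 10 2 = true := by decide +kernel

theorem chunkF_12 : chunkF 12 2 = true := by decide +kernel

theorem chunkF_14 : chunkF 14 2 = true := by decide +kernel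

theorem chunkF_16 : chunkF 16 2 = true := by decide +kernel

theorem startF_0 (v : ℕ) (h0 : 0 ≤ v) (h1 : v < 18) : nc 500 4 (startF v) = true := by
  by_cases h : v < 2
  · exact chunkF_spec _ _ chunkF_0 v (by omega) (by omega)
  by_cases h : v < 4
  · exact chunkF_spec _ _ chunkF_2 v (by omega) (by omega)
  by_cases h : v < 6
  · exact chunkF_spec _ _ chunkF_4 v (by omega) (by omega)
  by_cases h : v < 8
  · exact chunkF_spec _ _ chunkF_6 v (by omega) (by omega)
  by_cases h : v < 10
  · exact chunkF_spec _ _ chunkF_8 v (by omega) (by omega)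
  by_cases h : v < 12
  · exact chunkF_spec _ _ chunkF_10 v (by omega) (by omega)
  by_cases h : v < 14
  · exact chunkF_spec _ _ chunkF_12 v (by omega) (by omega)
  by_cases h : v < 16
  · exact chunkF_spec _ _ chunkF_14 v (by omega) (by omega)
  exact chunkF_spec _ _ chunkF_16 v (by omega) (by omega)

end Vale.Agent.H7.P052
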