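import Vale.Agent.H7.P052.FullDefs

namespace Vale.Agent.H7.P052

set_option maxRecDepth 100000

theorem chunkF_18 : chunkF 18 2 = true := by decide +kernel

theorem chunkF_20 : chunkF 20 3 = true := by decide +kernel

theorem chunkF_23 : chunkF 23 2 = true := by decide +kernel

theorem chunkF_25 : chunkF 25 3 = true := by decide +kernel

theorem chunkF_28 : chunkF 28 2 = true := by decide +kernel

theorem chunkF_30 : chunkF 30 3 = true := by decide +kernel

theorem chunkF_33 : chunkF 33 3 = true := by decide +kernel

theorem chunkF_36 : chunkF 36 3 = true := by decide +kernel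

theorem chunkF_39 : chunkF 39 3 = true := by decide +kernel

theorem startF_1 (v : ℕ) (h0 : 18 ≤ v) (h1 : v < 42) : nc 500 4 (startF v) = true := by
  by_cases h : v < 20
  · exact chunkF_spec _ _ chunkF_18 v (by omega) (by omega)
  by_cases h : v < 23
  · exact chunkF_spec _ _ chunkF_20 v (by omega) (by omega)
  by_cases h : v < 25
  · exact chunkF_spec _ _ chunkF_23 v (by omega) (by omega)
  by_cases h : v < 28
  · exact chunkF_spec _ _ chunkF_25 v (by omega) (by omega)
  by_cases h : v < 30
  · exact chunkF_spec _ _ chunkF_28 v (by omega) (by omega)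
  by_cases h : v < 33
  · exact chunkF_spec _ _ chunkF_30 v (by omega) (by omega)
  by_cases h : v < 36
  · exact chunkF_spec _ _ chunkF_33 v (by omega) (by omega)
  by_cases h : v < 39
  · exact chunkF_spec _ _ chunkF_36 v (by omega) (by omega)
  exact chunkF_spec _ _ chunkF_39 v (by omega) (by omega)

end Vale.Agent.H7.P052
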