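import Vale.Agent.H7.P052.FullDefs

namespace Vale.Agent.H7.P052

set_option maxRecDepth 100000

theorem chunkF_42 : chunkF 42 3 = true := by decide +kernel

theorem chunkF_45 : chunkF 45 3 = true := by decide +kernel

theorem chunkF_48 : chunkF 48 3 = true := by decide +kernel

theorem chunkF_51 : chunkF 51 3 = true := by decide +kernel

theorem chunkF_54 : chunkF 54 3 = true := by decide +kernel

theorem chunkF_57 : chunkF 57 3 = true := by decide +kernel

theorem chunkF_60 : chunkF 60 3 = true := by decide +kernel

theorem chunkF_63 : chunkF 63 3 = true := by decide +kernel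

theorem chunkF_66 : chunkF 66 3 = true := by decide +kernel

theorem startF_2 (v : ℕ) (h0 : 42 ≤ v) (h1 : v < 69) : nc 500 4 (startF v) = true := by
  by_cases h : v < 45
  · exact chunkF_spec _ _ chunkF_42 v (by omega) (by omega)
  by_cases h : v < 48
  · exact chunkF_spec _ _ chunkF_45 v (by omega) (by omega)
  by_cases h : v < 51
  · exact chunkF_spec _ _ chunkF_48 v (by omega) (by omega)
  by_cases h : v < 54
  · exact chunkF_spec _ _ chunkF_51 v (by omega) (by omega)
  by_cases h : v < 57
  · exact chunkF_spec _ _ chunkF_54 v (by omega) (by omega)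
  by_cases h : v < 60
  · exact chunkF_spec _ _ chunkF_57 v (by omega) (by omega)
  by_cases h : v < 63
  · exact chunkF_spec _ _ chunkF_60 v (by omega) (by omega)
  by_cases h : v < 66
  · exact chunkF_spec _ _ chunkF_63 v (by omega) (by omega)
  exact chunkF_spec _ _ chunkF_66 v (by omega) (by omega)

end Vale.Agent.H7.P052
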