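import Vale.Agent.H7.P052.FullDefs

namespace Vale.Agent.H7.P052

set_option maxRecDepth 100000

theorem chunkF_69 : chunkF 69 3 = true := by decide +kernel

theorem chunkF_72 : chunkF 72 3 = true := by decide +kernel

theorem chunkF_75 : chunkF 75 4 = true := by decide +kernel

theorem chunkF_79 : chunkF 79 4 = true := by decide +kernel

theorem chunkF_83 : chunkF 83 4 = true := by decide +kernel

theorem chunkF_87 : chunkF 87 4 = true := by decide +kernel

theorem chunkF_91 : chunkF 91 4 = true := by decide +kernel

theorem chunkF_95 : chunkF 95 4 = true := by decide +kernel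

theorem chunkF_99 : chunkF 99 4 = true := by decide +kernel

theorem startF_3 (v : ℕ) (h0 : 69 ≤ v) (h1 : v < 103) : nc 500 4 (startF v) = true := by
  by_cases h : v < 72
  · exact chunkF_spec _ _ chunkF_69 v (by omega) (by omega)
  by_cases h : v < 75
  · exact chunkF_spec _ _ chunkF_72 v (by omega) (by omega)
  by_cases h : v < 79
  · exact chunkF_spec _ _ chunkF_75 v (by omega) (by omega)
  by_cases h : v < 83
  · exact chunkF_spec _ _ chunkF_79 v (by omega) (by omega)
  by_cases h : v < 87
  · exact chunkF_spec _ _ chunkF_83 v (by omega) (by omega)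
  by_cases h : v < 91
  · exact chunkF_spec _ _ chunkF_87 v (by omega) (by omega)
  by_cases h : v < 95
  · exact chunkF_spec _ _ chunkF_91 v (by omega) (by omega)
  by_cases h : v < 99
  · exact chunkF_spec _ _ chunkF_95 v (by omega) (by omega)
  exact chunkF_spec _ _ chunkF_99 v (by omega) (by omega)

end Vale.Agent.H7.P052
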