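import Vale.Agent.H7.P052.FullDefs

namespace Vale.Agent.H7.P052

set_option maxRecDepth 100000

theorem chunkF_103 : chunkF 103 4 = true := by decide +kernel

theorem chunkF_107 : chunkF 107 4 = true := by decide +kernel

theorem chunkF_111 : chunkF 111 5 = true := by decide +kernel

theorem chunkF_116 : chunkF 116 5 = true := by decide +kernel

theorem chunkF_121 : chunkF 121 5 = true := by decide +kernel

theorem chunkF_126 : chunkF 126 6 = true := by decide +kernel

theorem chunkF_132 : chunkF 132 5 = true := by decide +kernel

theorem chunkF_137 : chunkF 137 6 = true := by decide +kernel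

theorem chunkF_143 : chunkF 143 7 = true := by decide +kernel

theorem startF_4 (v : ℕ) (h0 : 103 ≤ v) (h1 : v < 150) : nc 500 4 (startF v) = true := by
  by_cases h : v < 107
  · exact chunkF_spec _ _ chunkF_103 v (by omega) (by omega)
  by_cases h : v < 111
  · exact chunkF_spec _ _ chunkF_107 v (by omega) (by omega)
  by_cases h : v < 116
  · exact chunkF_spec _ _ chunkF_111 v (by omega) (by omega)
  by_cases h : v < 121
  · exact chunkF_spec _ _ chunkF_116 v (by omega) (by omega)
  by_cases h : v < 126
  · exact chunkF_spec _ _ chunkF_121 v (by omega) (by omega)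
  by_cases h : v < 132
  · exact chunkF_spec _ _ chunkF_126 v (by omega) (by omega)
  by_cases h : v < 137
  · exact chunkF_spec _ _ chunkF_132 v (by omega) (by omega)
  by_cases h : v < 143
  · exact chunkF_spec _ _ chunkF_137 v (by omega) (by omega)
  exact chunkF_spec _ _ chunkF_143 v (by omega) (by omega)

end Vale.Agent.H7.P052
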