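import Vale.Agent.H7.P052.FullDefs

namespace Vale.Agent.H7.P052

set_option maxRecDepth 100000

theorem chunkF_150 : chunkF 150 8 = true := by decide +kernel

theorem chunkF_158 : chunkF 158 10 = true := by decide +kernel

theorem chunkF_168 : chunkF 168 10 = true := by decide +kernel

theorem chunkF_178 : chunkF 178 11 = true := by decide +kernel

theorem chunkF_189 : chunkF 189 16 = true := by decide +kernel

theorem chunkF_205 : chunkF 205 18 = true := by decide +kernel

theorem chunkF_223 : chunkF 223 23 = true := by decide +kernel

theorem chunkF_246 : chunkF 246 41 = true := by decide +kernel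

theorem chunkF_287 : chunkF 287 129 = true := by decide +kernel

theorem startF_5 (v : ℕ) (h0 : 150 ≤ v) (h1 : v < 416) : nc 500 4 (startF v) = true := by
  by_cases h : v < 158
  · exact chunkF_spec _ _ chunkF_150 v (by omega) (by omega)
  by_cases h : v < 168
  · exact chunkF_spec _ _ chunkF_158 v (by omega) (by omega)
  by_cases h : v < 178
  · exact chunkF_spec _ _ chunkF_168 v (by omega) (by omega)
  by_cases h : v < 189
  · exact chunkF_spec _ _ chunkF_178 v (by omega) (by omega)
  by_cases h : v < 205
  · exact chunkF_spec _ _ chunkF_189 v (by omega) (by omega)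
  by_cases h : v < 223
  · exact chunkF_spec _ _ chunkF_205 v (by omega) (by omega)
  by_cases h : v < 246
  · exact chunkF_spec _ _ chunkF_223 v (by omega) (by omega)
  by_cases h : v < 287
  · exact chunkF_spec _ _ chunkF_246 v (by omega) (by omega)
  exact chunkF_spec _ _ chunkF_287 v (by omega) (by omega)

end Vale.Agent.H7.P052
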