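import Vale.Agent.H7.P052.Adj

namespace Vale.Agent.H7.P052

/-- neighbours of `v` with index in `(v, 320)` -/
def startS (v : ℕ) : ℕ :=
  Nat.land (vrow v) (Nat.shiftLeft (Nat.sub (Nat.pow 2 320) (Nat.pow 2 (Nat.add v 1))) 64)

/-- check of the vertices `a, ..., a + n - 1` -/
def chunk (a n : ℕ) : Bool :=
  Nat.rec (motive := fun _ => Bool) true
    (fun i acc => and (nc 400 4 (startS (Nat.add a i))) acc) n

theorem chunk_spec (a n : ℕ) (h : chunk a n = true) : ∀ v, a ≤ v → v < a + n →
    nc 400 4 (startS v) = true := by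
  induction n with
  | zero => intro v h1 h2; omega
  | succ n ih =>
    intro v h1 h2
    have h' : (and (nc 400 4 (startS (Nat.add a n))) (chunk a n)) = true := h
    rw [Bool.and_eq_true] at h'
    by_cases hv : v = a + n
    · subst hv; exact h'.1
    · exact ih h'.2 v h1 (by omega)

end Vale.Agent.H7.P052
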