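import Vale.Agent.H7.P052.CheckC0
import Vale.Agent.H7.P052.CheckC1
import Vale.Agent.H7.P052.CheckC2
import Vale.Agent.H7.P052.CheckC3

namespace Vale.Agent.H7.P052

open Finset

theorem nc_start (v : ℕ) (hv : v < 320) : nc 400 4 (startS v) = true := by
  by_cases h0 : v < 24
  · by_cases h : v < 4
    · exact chunk_spec _ _ chunk_0 v (by omega) (by omega)
    · by_cases h : v < 8
      · exact chunk_spec _ _ chunk_4 v (by omega) (by omega)
      · by_cases h : v < 12
        · exact chunk_spec _ _ chunk_8 v (by omega) (by omega)
        · by_cases h : v < 16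
          · exact chunk_spec _ _ chunk_12 v (by omega) (by omega)
          · by_cases h : v < 20
            · exact chunk_spec _ _ chunk_16 v (by omega) (by omega)
            · exact chunk_spec _ _ chunk_20 v (by omega) (by omega)
  by_cases h1 : v < 51
  · by_cases h : v < 29
    · exact chunk_spec _ _ chunk_24 v (by omega) (by omega)
    · by_cases h : v < 34
      · exact chunk_spec _ _ chunk_29 v (by omega) (by omega)
      · by_cases h : v < 39
        · exact chunk_spec _ _ chunk_34 v (by omega) (by omega)
        · by_cases h : v < 45
          · exact chunk_spec _ _ chunk_39 v (by omega) (by omega)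
          · exact chunk_spec _ _ chunk_45 v (by omega) (by omega)
  by_cases h2 : v < 86
  · by_cases h : v < 57
    · exact chunk_spec _ _ chunk_51 v (by omega) (by omega)
    · by_cases h : v < 63
      · exact chunk_spec _ _ chunk_57 v (by omega) (by omega)
      · by_cases h : v < 70
        · exact chunk_spec _ _ chunk_63 v (by omega) (by omega)
        · by_cases h : v < 77
          · exact chunk_spec _ _ chunk_70 v (by omega) (by omega)
          · exact chunk_spec _ _ chunk_77 v (by omega) (by omega)
  by_cases h3 : v < 128
  · by_cases h : v < 96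
    · exact chunk_spec _ _ chunk_86 v (by omega) (by omega)
    · by_cases h : v < 105
      · exact chunk_spec _ _ chunk_96 v (by omega) (by omega)
      · by_cases h : v < 115
        · exact chunk_spec _ _ chunk_105 v (by omega) (by omega)
        · exact chunk_spec _ _ chunk_115 v (by omega) (by omega)
  · by_cases h : v < 141
    · exact chunk_spec _ _ chunk_128 v (by omega) (by omega)
    · by_cases h : v < 166
      · exact chunk_spec _ _ chunk_141 v (by omega) (by omega)
      · by_cases h : v < 214
        · exact chunk_spec _ _ chunk_166 v (by omega) (by omega)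
        · exact chunk_spec _ _ chunk_214 v (by omega) (by omega)

/-- no clique of size 6 among the first 320 vertices -/
theorem clique_le_five (t : Finset ℕ) (ht : ∀ v ∈ t, v < 320)
    (hc : ∀ u ∈ t, ∀ v ∈ t, u ≠ v → adj u v = true) : t.card ≤ 5 := by
  rcases t.eq_empty_or_nonempty with rfl | hne
  · simp
  · set v := t.min' hne with hv
    have hvt : v ∈ t := t.min'_mem hne
    have h4 : (t.erase v).card ≤ 4 := by
      refine nc_sound 400 4 (startS v) (nc_start v (ht v hvt)) _ ?_ ?_
      · intro u hu
        have hu' := Finset.mem_erase.1 hu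
        have hlt : v < u := lt_of_le_of_ne (t.min'_le u hu'.2) (Ne.symm hu'.1)
        have hu3 := ht u hu'.2
        change (vrow v &&& ((2 ^ 320 - 2 ^ (v + 1)) <<< 64)).testBit (64 + u) = true
        rw [Nat.testBit_and, Nat.testBit_shiftLeft]
        have h1 : (vrow v).testBit (64 + u) = true := hc v hvt u hu'.2 hlt.ne
        have h2 : 64 + u - 64 = u := by omega
        have h3 : 2 ^ 320 - 2 ^ (v + 1) = (2 ^ (320 - (v + 1)) - 1) <<< (v + 1) := by
          rw [Nat.shiftLeft_eq, Nat.sub_mul, one_mul, ← pow_add]
          congr 2
          omega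
        rw [h1, h2, h3, Nat.testBit_shiftLeft, Nat.testBit_two_pow_sub_one]
        simp
        omega
      · intro a ha b hb hab
        exact hc a (Finset.mem_of_mem_erase ha) b (Finset.mem_of_mem_erase hb) hab
    rw [Finset.card_erase_of_mem hvt] at h4
    omega

/-- no clique of size 5 among the neighbours of the vertex 320 in the first 320 vertices -/
theorem clique_le_four (t : Finset ℕ) (ht : ∀ v ∈ t, v < 320)
    (hc : ∀ u ∈ t, ∀ v ∈ t, u ≠ v → adj u v = true) (hw : ∀ v ∈ t, adj 320 v = true) :
    t.card ≤ 4 := by
  refine nc_sound 400 4 _ no5_ok t ?_ hc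
  intro u hu
  change (vrow 320 &&& ((2 ^ 320 - 1) <<< 64)).testBit (64 + u) = true
  rw [Nat.testBit_and, Nat.testBit_shiftLeft]
  have h1 : (vrow 320).testBit (64 + u) = true := hw u hu
  have h2 : 64 + u - 64 = u := by omega
  rw [h1, h2, Nat.testBit_two_pow_sub_one]
  simp [ht u hu]

end Vale.Agent.H7.P052
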