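import Mathlib

namespace Vale.Agent.H7.P052

/-- `Y` is a union of `k` subsets, each of diameter strictly smaller than the diameter of `Y`. -/
def SplitsInto {E : Type} [PseudoMetricSpace E] (Y : Set E) (k : ℕ) : Prop :=
  ∃ P : Fin k → Set E, Y = ⋃ i, P i ∧ ∀ i, Metric.diam (P i) < Metric.diam Y

/-- Borsuk's conjecture in dimension `d`: every bounded subset of `ℝ^d` of positive diameter is a
union of `d + 1` subsets of strictly smaller diameter. -/
def BorsukConjecture (d : ℕ) : Prop :=
  ∀ Y : Set (EuclideanSpace ℝ (Fin d)), Bornology.IsBounded Y → 0 < Metric.diam Y →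
    SplitsInto Y (d + 1)

end Vale.Agent.H7.P052
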