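import Vale.Agent.H7.P052.CheckF0
import Vale.Agent.H7.P052.CheckF1
import Vale.Agent.H7.P052.CheckF2
import Vale.Agent.H7.P052.CheckF3
import Vale.Agent.H7.P052.CheckF4
import Vale.Agent.H7.P052.CheckF5

namespace Vale.Agent.H7.P052

open Finset

theorem nc_startF (v : ℕ) (hv : v < 416) : nc 500 4 (startF v) = true := by
  by_cases h0 : v < 18
  · exact startF_0 v (by omega) (by omega)
  by_cases h1 : v < 42
  · exact startF_1 v (by omega) (by omega)
  by_cases h2 : v < 69
  · exact startF_2 v (by omega) (by omega)
  by_cases h3 : v < 103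
  · exact startF_3 v (by omega) (by omega)
  by_cases h4 : v < 150
  · exact startF_4 v (by omega) (by omega)
  exact startF_5 v (by omega) (by omega)

/-- the clique number of the graph is at most 5 -/
theorem clique_card_le (t : Finset ℕ) (ht : ∀ v ∈ t, v < 416)
    (hc : ∀ u ∈ t, ∀ v ∈ t, u ≠ v → adj u v = true) : t.card ≤ 5 := by
  rcases t.eq_empty_or_nonempty with rfl | hne
  · simp
  · set v := t.min' hne with hv
    have hvt : v ∈ t := t.min'_mem hne
    have h4 : (t.erase v).card ≤ 4 := by
      refine nc_sound 500 4 (startF v) (nc_startF v (ht v hvt)) _ ?_ ?_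
      · intro u hu
        have hu' := Finset.mem_erase.1 hu
        have hlt : v < u := lt_of_le_of_ne (t.min'_le u hu'.2) (Ne.symm hu'.1)
        have hu3 := ht u hu'.2
        change (vrow v &&& ((2 ^ 416 - 2 ^ (v + 1)) <<< 64)).testBit (64 + u) = true
        rw [Nat.testBit_and, Nat.testBit_shiftLeft]
        have h1 : (vrow v).testBit (64 + u) = true := hc v hvt u hu'.2 hlt.ne
        have h2 : 64 + u - 64 = u := by omega
        have h3 : 2 ^ 416 - 2 ^ (v + 1) = (2 ^ (416 - (v + 1)) - 1) <<< (v + 1) := by
          rw [Nat.shiftLeft_eq, Nat.sub_mul, one_mul, ← pow_add]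
          congr 2
          omega
        rw [h1, h2, h3, Nat.testBit_shiftLeft, Nat.testBit_two_pow_sub_one]
        simp
        omega
      · intro a ha b hb hab
        exact hc a (Finset.mem_of_mem_erase ha) b (Finset.mem_of_mem_erase hb) hab
    rw [Finset.card_erase_of_mem hvt] at h4
    omega

end Vale.Agent.H7.P052
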