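import Vale.Agent.H7.P052.CheckA

namespace Vale.Agent.H7.P052

open Finset

theorem digits_unique (B : ℕ) (hB : 0 < B) (n : ℕ) : ∀ (a b : ℕ → ℕ),
    (∀ i < n, a i < B) → (∀ i < n, b i < B) →
    (∑ i ∈ range n, a i * B ^ i = ∑ i ∈ range n, b i * B ^ i) → ∀ i < n, a i = b i := by
  induction n with
  | zero => intro a b _ _ _ i hi; omega
  | succ n ih =>
    intro a b ha hb h
    have key : ∀ c : ℕ → ℕ, ∑ i ∈ range (n + 1), c i * B ^ i
        = c 0 + B * ∑ i ∈ range n, c (i + 1) * B ^ i := by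
      intro c
      rw [sum_range_succ', mul_sum, add_comm]
      congr 1
      · simp
      · apply sum_congr rfl; intro i _; ring
    rw [key a, key b] at h
    have h0 : a 0 = b 0 := by
      have := congrArg (· % B) h
      simp only [Nat.add_mul_mod_self_left] at this
      rwa [Nat.mod_eq_of_lt (ha 0 (by omega)), Nat.mod_eq_of_lt (hb 0 (by omega))] at this
    rw [h0] at h
    have h1 : ∑ i ∈ range n, a (i + 1) * B ^ i = ∑ i ∈ range n, b (i + 1) * B ^ i :=
      Nat.eq_of_mul_eq_mul_left hB (Nat.add_left_cancel h)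
    intro i hi
    rcases i with _ | i
    · exact h0
    · exact ih (fun i => a (i + 1)) (fun i => b (i + 1)) (fun i hi => ha _ (by omega))
        (fun i hi => hb _ (by omega)) h1 i (by omega)

theorem bit_le (v w : ℕ) : bit v w ≤ 1 := by
  rw [bit_eq]; cases adj v w <;> simp

theorem bit_symm {v w : ℕ} (hv : v < 416) (hw : w < 416) : bit v w = bit w v := by
  have h := allTo_spec _ _ symm_ok
  rcases lt_trichotomy v w with h1 | h1 | h1
  · exact (Nat.eq_of_beq_eq_true (allTo_spec _ _ (h w hw) v h1)).symm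
  · rw [h1]
  · exact Nat.eq_of_beq_eq_true (allTo_spec _ _ (h v hv) w h1)

theorem bit_self {v : ℕ} (hv : v < 416) : bit v v = 0 :=
  Nat.eq_of_beq_eq_true (allTo_spec _ _ irr_ok v hv)

set_option exponentiation.threshold 1000 in
theorem bit_sq {v w : ℕ} (hv : v < 416) (hw : w < 416) :
    ∑ u ∈ range 416, bit v u * bit u w = 80 * (if v = w then 1 else 0) + 16 * bit v w + 20 := by
  have h := Nat.eq_of_beq_eq_true (allTo_spec _ _ sq_ok v hv)
  have hrs : ∀ u, rS u = ∑ w ∈ range 416, bit u w * 512 ^ w := fun u => sumTo_eq _ _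
  have hones : ones512 = ∑ w ∈ range 416, 512 ^ w := sumTo_eq _ _
  rw [sumTo_eq] at h
  have h' : ∑ u ∈ range 416, bit v u * rS u = 80 * 512 ^ v + 16 * rS v + 20 * ones512 := h
  have hl : ∑ u ∈ range 416, bit v u * rS u
      = ∑ w ∈ range 416, (∑ u ∈ range 416, bit v u * bit u w) * 512 ^ w := by
    simp only [hrs, mul_sum, sum_mul]
    rw [sum_comm]
    apply sum_congr rfl; intro i _
    apply sum_congr rfl; intro j _
    ring
  have hr : 80 * 512 ^ v + 16 * rS v + 20 * ones512
      = ∑ w ∈ range 416, (80 * (if v = w then 1 else 0) + 16 * bit v w + 20) * 512 ^ w := by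
    have e1 : ∑ w ∈ range 416, 80 * (if v = w then 1 else 0) * 512 ^ w = 80 * 512 ^ v := by
      simp only [mul_ite, mul_one, mul_zero, ite_mul, zero_mul]
      rw [sum_ite_eq, if_pos (mem_range.2 hv)]
    have e2 : ∑ w ∈ range 416, 16 * bit v w * 512 ^ w
        = 16 * ∑ w ∈ range 416, bit v w * 512 ^ w := by
      rw [mul_sum]; apply sum_congr rfl; intro i _; ring
    have e3 : ∑ w ∈ range 416, 20 * 512 ^ w = 20 * ∑ w ∈ range 416, 512 ^ w := by
      rw [mul_sum]
    rw [hrs, hones]
    simp only [add_mul, sum_add_distrib]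
    rw [e1, e2, e3]
  rw [hl, hr] at h'
  refine digits_unique 512 (by norm_num) 416 _ _ ?_ ?_ h' w hw
  · intro i _
    calc ∑ u ∈ range 416, bit v u * bit u i ≤ ∑ u ∈ range 416, 1 := by
          apply sum_le_sum; intro u _
          have h1 := bit_le v u
          have h2 := bit_le u i
          nlinarith
      _ = 416 := by simp
      _ < 512 := by norm_num
  · intro i _
    have := bit_le v i
    split_ifs <;> omega

theorem bit_deg {v : ℕ} (hv : v < 416) : ∑ u ∈ range 416, bit v u = 100 := by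
  have h := bit_sq hv hv
  rw [bit_self hv] at h
  have h100 : (80 * (if v = v then 1 else 0) + 16 * 0 + 20 : ℕ) = 100 := by simp
  rw [h100] at h
  rw [← h]
  apply sum_congr rfl
  intro u hu
  rw [← bit_symm hv (mem_range.1 hu)]
  have := bit_le v u
  interval_cases bit v u <;> rfl

theorem cntB_eq (v i : ℕ) : cntB v i = ∑ j ∈ range 32, bit v (320 + 32 * i + j) := sumTo_eq _ _

theorem cnt_U {v i : ℕ} (hv : v < 320) (hi : i < 3) :
    ∑ j ∈ range 32, bit v (320 + 32 * i + j) = 8 := by
  rw [← cntB_eq]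
  exact Nat.eq_of_beq_eq_true (allTo_spec _ _ (allTo_spec _ _ u_ok v hv) i hi)

theorem cnt_W {b a i : ℕ} (hb : b < 3) (ha : a < 32) (hi : i < 3) :
    ∑ j ∈ range 32, bit (320 + 32 * b + a) (320 + 32 * i + j) = if i = b then 20 else 0 := by
  rw [← cntB_eq]
  have h := Nat.eq_of_beq_eq_true
    (allTo_spec _ _ (allTo_spec _ _ (allTo_spec _ _ w_ok b hb) a ha) i hi)
  have h' : cntB (320 + 32 * b + a) i
    = Bool.rec (motive := fun _ => ℕ) 0 20 (Nat.beq i b) := h
  rw [h']
  by_cases hib : i = b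
  · subst hib; simp
  · have : Nat.beq i b = false := by
      rw [Bool.eq_false_iff]; intro h; exact hib (Nat.eq_of_beq_eq_true h)
    rw [this, if_neg hib]

end Vale.Agent.H7.P052
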