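import Vale.Agent.H7.P052.Adj

namespace Vale.Agent.H7.P052

/-- `∑ i < n, f i` -/
def sumTo (n : ℕ) (f : ℕ → ℕ) : ℕ :=
  Nat.rec (motive := fun _ => ℕ) 0 (fun i acc => Nat.add acc (f i)) n

theorem sumTo_eq (n : ℕ) (f : ℕ → ℕ) : sumTo n f = ∑ i ∈ Finset.range n, f i := by
  induction n with
  | zero => rfl
  | succ n ih => rw [Finset.sum_range_succ, ← ih]; rfl

/-- `p i` for `i < n` -/
def allTo (n : ℕ) (p : ℕ → Bool) : Bool :=
  Nat.rec (motive := fun _ => Bool) true (fun i acc => and (p i) acc) n

theorem allTo_spec (n : ℕ) (p : ℕ → Bool) (h : allTo n p = true) : ∀ i, i < n → p i = true := by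
  induction n with
  | zero => intro i hi; omega
  | succ n ih =>
    intro i hi
    have h' : and (p n) (allTo n p) = true := h
    rw [Bool.and_eq_true] at h'
    by_cases hin : i = n
    · subst hin; exact h'.1
    · exact ih h'.2 i (by omega)

/-- row `u` of the adjacency matrix packed in base `512` -/
def rS (u : ℕ) : ℕ := sumTo 416 (fun w => Nat.mul (bit u w) (Nat.pow 512 w))

def ones512 : ℕ := sumTo 416 (fun w => Nat.pow 512 w)

/-- row `v` of `A * A = 80 + 16 A + 20 J` -/
def checkSq (v : ℕ) : Bool :=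
  Nat.beq (sumTo 416 (fun u => Nat.mul (bit v u) (rS u)))
    (Nat.add (Nat.add (Nat.mul 80 (Nat.pow 512 v)) (Nat.mul 16 (rS v))) (Nat.mul 20 ones512))

/-- row `v` of the symmetry of the adjacency -/
def checkSymm (v : ℕ) : Bool := allTo v (fun w => Nat.beq (bit v w) (bit w v))

/-- number of neighbours of `v` in block `i` -/
def cntB (v i : ℕ) : ℕ := sumTo 32 (fun j => bit v (Nat.add (Nat.add 320 (Nat.mul 32 i)) j))

/-- a vertex outside `W` has 8 neighbours in each block -/
def checkU : Bool := allTo 320 (fun v => allTo 3 (fun i => Nat.beq (cntB v i) 8))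

/-- a vertex of the block `b` has 20 neighbours in it and none in the other blocks -/
def checkW : Bool := allTo 3 (fun b => allTo 32 (fun j => allTo 3 (fun i =>
  Nat.beq (cntB (Nat.add (Nat.add 320 (Nat.mul 32 b)) j) i)
    (Bool.rec (motive := fun _ => ℕ) 0 20 (Nat.beq i b)))))

end Vale.Agent.H7.P052
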